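import Vale.Agent.P157.Parisi.CalcGauss
import Vale.Agent.P157.GaussLaw
import Vale.Agent.P166.Parisi.GaussPoincare

/-!
Even moments of functions of a standard Gaussian vector through the moments of the gradient.
-/

namespace Vale.Agent.P146.Power.Moments

open MeasureTheory ProbabilityTheory Finset
open Vale.Agent.P157 (gauss integral_field)
open Vale.Agent.P157.Parisi (Tame GradOf gaussianReal_ibp tame_sum tame_const tame_coord)
open Vale.Agent.P166.Parisi.GaussPoincare (wexp integrable_wexp interpDeriv continuous_interpDeriv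
  deriv_bound hasFDerivAt_of_dir integral_rot)

variable {ι : Type} [Fintype ι]

lemma tame_pow {f : (ι → ℝ) → ℝ} (hf : Tame f) : ∀ N : ℕ, Tame fun y => f y ^ N
  | 0 => by simpa using tame_const (1 : ℝ)
  | N + 1 => by simpa [pow_succ] using (tame_pow hf N).mul hf

lemma integrable_pow_gaussianReal (k : ℕ) :
    Integrable (fun x : ℝ => x ^ k) (gaussianReal 0 1) := by
  refine Integrable.mono' ((memLp_id_gaussianReal (μ := 0) (v := 1) k).integrable_norm_pow')
    (by fun_prop) (.of_forall fun x => ?_)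
  simp [norm_pow]

/-- The even moments on the line. -/
lemma integral_pow_gaussianReal_le :
    ∀ j : ℕ, ∫ x : ℝ, x ^ (2 * j) ∂gaussianReal 0 1 ≤ (2 * (j : ℝ)) ^ j := by
  intro j
  induction j with
  | zero => simp
  | succ j ih =>
    have hI := gaussianReal_ibp (F := fun x => x ^ (2 * j + 1))
      (F' := fun x => ((2 * j + 1 : ℕ) : ℝ) * x ^ (2 * j))
      (fun x => by simpa using hasDerivAt_pow (2 * j + 1) x) (integrable_pow_gaussianReal _)
      ((integrable_pow_gaussianReal (2 * j + 2)).congr (.of_forall fun x => by ring))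
      ((integrable_pow_gaussianReal (2 * j)).const_mul _)
    have e : (fun x : ℝ => x * x ^ (2 * j + 1)) = fun x => x ^ (2 * (j + 1)) := by
      funext x; ring
    rw [e, integral_const_mul] at hI
    rw [hI]
    push_cast
    calc (2 * (j : ℝ) + 1) * ∫ x : ℝ, x ^ (2 * j) ∂gaussianReal 0 1
        ≤ (2 * ((j : ℝ) + 1)) * (2 * ((j : ℝ) + 1)) ^ j := by
          refine mul_le_mul (by linarith) (ih.trans ?_) ?_ (by positivity)
          · gcongr; linarith
          · exact integral_nonneg fun x => by rw [pow_mul]; positivity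
      _ = _ := by ring

/-- The even moments of a linear form. -/
lemma integral_linear_pow_le (a : ι → ℝ) {j : ℕ} (hj : 0 < j) :
    ∫ z, (∑ i, z i * a i) ^ (2 * j) ∂gauss ι ≤ (2 * (j : ℝ)) ^ j * (∑ i, a i ^ 2) ^ j := by
  rcases (sum_nonneg fun i (_ : i ∈ univ) => sq_nonneg (a i)).eq_or_lt' with h | h
  · have ha : ∀ i, a i = 0 := fun i => by
      have := (sum_eq_zero_iff_of_nonneg fun i _ => sq_nonneg (a i)).1 h i (mem_univ i)
      simpa using this
    simp only [ha, mul_zero, sum_const_zero, zero_pow (show 2 * j ≠ 0 by omega), integral_zero]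
    positivity
  · set r := Real.sqrt (∑ i, a i ^ 2) with hr
    have hr2 : r ^ 2 = ∑ i, a i ^ 2 := Real.sq_sqrt h.le
    have hr0 : r ≠ 0 := (Real.sqrt_pos.2 h).ne'
    have hu : ∑ i, (a i / r) ^ 2 = 1 := by
      simp only [div_pow, ← sum_div, hr2, div_self h.ne']
    have e := integral_field hu (F := fun x => x ^ (2 * j)) (by fun_prop)
    have e1 : ∀ z : ι → ℝ, (∑ i, z i * a i) ^ (2 * j) =
        (∑ i, a i ^ 2) ^ j * (∑ i, z i * (a i / r)) ^ (2 * j) := fun z => by
      rw [← hr2, ← pow_mul, ← mul_pow, mul_sum]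
      congr 1
      exact sum_congr rfl fun i _ => by field_simp
    simp only [e1, integral_const_mul, e]
    rw [mul_comm]
    exact mul_le_mul_of_nonneg_right (integral_pow_gaussianReal_le j) (pow_nonneg h.le _)

/-- Jensen for an even power on an interval. -/
lemma pow_integral_le {φ : ℝ → ℝ} (hφ : Continuous φ) {T : ℝ} (hT : 0 < T) (j : ℕ) :
    (∫ θ in (0:ℝ)..T, φ θ) ^ (2 * j) ≤
      T ^ (2 * j) * (T⁻¹ * ∫ θ in (0:ℝ)..T, φ θ ^ (2 * j)) := by
  have h := (Even.convexOn_pow (𝕜 := ℝ) ⟨j, by ring⟩ : ConvexOn ℝ Set.univ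
      fun x : ℝ => x ^ (2 * j)).map_set_average_le (μ := volume) (t := Set.Ioc 0 T) (f := φ)
    (continuous_pow _).continuousOn isClosed_univ (by simp [hT]) (by simp) (by simp)
    hφ.integrableOn_Ioc (hφ.pow _).integrableOn_Ioc
  simp only [setAverage_eq, Real.volume_real_Ioc_of_le hT.le, sub_zero, smul_eq_mul] at h
  rw [← intervalIntegral.integral_of_le hT.le, ← intervalIntegral.integral_of_le hT.le] at h
  calc (∫ θ in (0:ℝ)..T, φ θ) ^ (2 * j)
      = T ^ (2 * j) * (T⁻¹ * ∫ θ in (0:ℝ)..T, φ θ) ^ (2 * j) := by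
        rw [← mul_pow, ← mul_assoc, mul_inv_cancel₀ hT.ne', one_mul]
    _ ≤ _ := mul_le_mul_of_nonneg_left h (by positivity)

/-- An even power of an increment through the derivative along the interpolation. -/
lemma pow_sub_le {f : (ι → ℝ) → ℝ} {g : ι → (ι → ℝ) → ℝ} (hd : GradOf f g)
    (hgc : ∀ i, Continuous (g i)) (p : (ι → ℝ) × (ι → ℝ)) {T : ℝ} (hT0 : 0 < T)
    (hT : T = Real.pi / 2) (j : ℕ) :
    (f p.1 - f p.2) ^ (2 * j) ≤
      T ^ (2 * j) * (T⁻¹ * ∫ θ in (0:ℝ)..T, interpDeriv g θ p ^ (2 * j)) := by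
  have hder : ∀ θ, HasDerivAt
      (fun θ => f fun i => Real.sin θ * p.1 i + Real.cos θ * p.2 i) (interpDeriv g θ p) θ := by
    intro θ
    have hZ : HasDerivAt (fun θ => fun i => Real.sin θ * p.1 i + Real.cos θ * p.2 i)
        (fun i => Real.cos θ * p.1 i - Real.sin θ * p.2 i) θ := by
      refine hasDerivAt_pi.2 fun i => ?_
      simpa [sub_eq_add_neg] using
        ((Real.hasDerivAt_sin θ).mul_const (p.1 i)).fun_add
          ((Real.hasDerivAt_cos θ).mul_const (p.2 i))
    have h1 := HasFDerivAt.comp_hasDerivAt (f := fun θ => fun i =>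
      Real.sin θ * p.1 i + Real.cos θ * p.2 i) θ
      (hasFDerivAt_of_dir hd hgc (fun i => Real.sin θ * p.1 i + Real.cos θ * p.2 i)) hZ
    have e : (∑ i, g i (fun j => Real.sin θ * p.1 j + Real.cos θ * p.2 j) •
        (ContinuousLinearMap.proj i : (ι → ℝ) →L[ℝ] ℝ))
          (fun i => Real.cos θ * p.1 i - Real.sin θ * p.2 i) = interpDeriv g θ p := by
      simp only [interpDeriv, _root_.sum_apply, FunLike.coe_smul, Pi.smul_apply,
        ContinuousLinearMap.proj_apply, smul_eq_mul]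
    rw [e] at h1
    exact h1
  have hc : Continuous fun θ => interpDeriv g θ p := by
    unfold interpDeriv
    refine continuous_finsetSum _ fun i _ => ((hgc i).comp ?_).mul ?_ <;> fun_prop
  have hI := intervalIntegral.integral_eq_sub_of_hasDerivAt (fun θ _ => hder θ)
    (hc.intervalIntegrable 0 T)
  simp only [hT, Real.sin_pi_div_two, Real.cos_pi_div_two, Real.sin_zero, Real.cos_zero,
    one_mul, zero_mul, add_zero, zero_add] at hI
  rw [← hI, ← hT]
  exact pow_integral_le hc hT0 j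

variable [DecidableEq ι]

/-- The even central moments are bounded by the moments of the squared gradient. -/
theorem central_moment_le {f : (ι → ℝ) → ℝ} {g : ι → (ι → ℝ) → ℝ} (hf : Tame f)
    (hg : ∀ i, Tame (g i)) (hd : GradOf f g) {j : ℕ} (hj : 0 < j) :
    ∫ x, (f x - ∫ y, f y ∂gauss ι) ^ (2 * j) ∂gauss ι ≤
      (8 * (j : ℝ)) ^ j * ∫ x, (∑ i, g i x ^ 2) ^ j ∂gauss ι := by
  set μ := gauss ι with hμ
  set T := Real.pi / 2 with hT
  have hT0 : 0 < T := by positivity
  have hgc : ∀ i, Continuous (g i) := fun i => (hg i).1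
  obtain ⟨C, k, hC, hk, hb⟩ := (tame_sum univ fun i _ => (hg i).abs).bound
  have hbg : ∀ i y, |g i y| ≤ C * Real.exp (k * ∑ i, |y i|) := fun i y => by
    refine le_trans ?_ ((le_abs_self _).trans (hb y))
    exact single_le_sum (f := fun i => |g i y|) (fun i _ => abs_nonneg _) (mem_univ i)
  set τ : Measure ℝ := volume.restrict (Set.Ioc 0 T) with hτ
  have : IsFiniteMeasure τ := by rw [hτ]; infer_instance
  have hwp : ∀ (r : ℝ) (y : ι → ℝ), wexp r y ^ j = wexp (j * r) y := fun r y => by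
    rw [wexp, wexp, ← Real.exp_nat_mul]; ring_nf
  have hbD : ∀ p θ, interpDeriv g θ p ^ (2 * j) ≤ (((Fintype.card ι : ℝ) * C) ^ 2) ^ j *
      (wexp (j * (2 * (k + 1))) p.1 * wexp (j * (2 * (k + 1))) p.2) := fun p θ => by
    rw [pow_mul, ← hwp, ← hwp, ← mul_pow, ← mul_pow]
    exact pow_le_pow_left₀ (sq_nonneg _)
      (deriv_bound hC hk hbg (Real.abs_sin_le_one θ) (Real.abs_cos_le_one θ) p) j
  have hnn : ∀ x : ℝ, 0 ≤ x ^ (2 * j) := fun x => by rw [pow_mul]; positivity
  have hdom : Integrable (fun p : (ι → ℝ) × (ι → ℝ) => (((Fintype.card ι : ℝ) * C) ^ 2) ^ j *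
      (wexp (j * (2 * (k + 1))) p.1 * wexp (j * (2 * (k + 1))) p.2)) (μ.prod μ) :=
    ((integrable_wexp _).mul_prod (integrable_wexp _)).const_mul _
  have hjoint : Integrable (fun q : ((ι → ℝ) × (ι → ℝ)) × ℝ => interpDeriv g q.2 q.1 ^ (2 * j))
      ((μ.prod μ).prod τ) :=
    (hdom.comp_fst τ).mono' ((continuous_interpDeriv hgc).pow _).aestronglyMeasurable
      (.of_forall fun q => by
        rw [Real.norm_eq_abs, abs_of_nonneg (hnn _)]; exact hbD q.1 q.2)
  have hpt : ∀ p : (ι → ℝ) × (ι → ℝ), (f p.1 - f p.2) ^ (2 * j) ≤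
      T ^ (2 * j) * (T⁻¹ * ∫ θ, interpDeriv g θ p ^ (2 * j) ∂τ) := by
    intro p
    refine (pow_sub_le hd hgc p hT0 hT j).trans_eq ?_
    rw [intervalIntegral.integral_of_le hT0.le, hτ]
  have hint : Integrable (fun p : (ι → ℝ) × (ι → ℝ) => (f p.1 - f p.2) ^ (2 * j)) (μ.prod μ) :=
    ((hjoint.integral_prod_left.const_mul T⁻¹).const_mul (T ^ (2 * j))).mono'
      (((hf.1.comp continuous_fst).sub (hf.1.comp continuous_snd)).pow _).aestronglyMeasurable
      (.of_forall fun p => by rw [Real.norm_eq_abs, abs_of_nonneg (hnn _)]; exact hpt p)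
  have hfi : Integrable f μ := hf.integrable
  have hcm : Tame fun x => (f x - ∫ y, f y ∂μ) ^ (2 * j) := tame_pow (hf.sub (tame_const _)) _
  have hj1 : ∀ x, (f x - ∫ y, f y ∂μ) ^ (2 * j) ≤ ∫ y, (f x - f y) ^ (2 * j) ∂μ := by
    intro x
    have h := (Even.convexOn_pow (𝕜 := ℝ) ⟨j, by ring⟩ : ConvexOn ℝ Set.univ
      fun t : ℝ => t ^ (2 * j)).map_integral_le (μ := μ) (f := fun y => f x - f y)
      (continuous_pow _).continuousOn isClosed_univ (by simp) ((integrable_const _).sub hfi)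
      (tame_pow ((tame_const (f x)).sub hf) (2 * j)).integrable
    rw [integral_sub (integrable_const _) hfi, integral_const] at h
    simpa using h
  have hlin : ∀ θ, ∫ p, interpDeriv g θ p ^ (2 * j) ∂μ.prod μ ≤
      (2 * (j : ℝ)) ^ j * ∫ x, (∑ i, g i x ^ 2) ^ j ∂μ := by
    intro θ
    have hh : Continuous fun p : (ι → ℝ) × (ι → ℝ) => (∑ i, g i p.1 * p.2 i) ^ (2 * j) := by
      refine (continuous_finsetSum _ fun i _ => ((hgc i).comp continuous_fst).mul ?_).pow _
      fun_prop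
    refine (integral_rot (Real.sin_sq_add_cos_sq θ) hh).trans_le ?_
    have hh_i : Integrable (fun p : (ι → ℝ) × (ι → ℝ) => (∑ i, g i p.1 * p.2 i) ^ (2 * j))
        (μ.prod μ) := by
      refine hdom.mono' hh.aestronglyMeasurable (.of_forall fun p => ?_)
      rw [Real.norm_eq_abs, abs_of_nonneg (hnn _)]
      have e : interpDeriv g T (p.1, fun i => -p.2 i) = ∑ i, g i p.1 * p.2 i := by
        simp [interpDeriv, hT]
      have := hbD (p.1, fun i => -p.2 i) T
      rw [e] at this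
      simpa [wexp] using this
    rw [integral_prod _ hh_i, ← integral_const_mul]
    refine integral_mono hh_i.integral_prod_left
      ((tame_pow (tame_sum univ fun i _ => (hg i).sq) j).integrable.const_mul _) fun x => ?_
    simp only [mul_comm (g _ x)]
    exact integral_linear_pow_le (fun i => g i x) hj
  calc ∫ x, (f x - ∫ y, f y ∂μ) ^ (2 * j) ∂μ
      ≤ ∫ x, ∫ y, (f x - f y) ^ (2 * j) ∂μ ∂μ :=
        integral_mono hcm.integrable hint.integral_prod_left hj1
    _ = ∫ p, (f p.1 - f p.2) ^ (2 * j) ∂μ.prod μ := (integral_prod _ hint).symm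
    _ ≤ ∫ p, T ^ (2 * j) * (T⁻¹ * ∫ θ, interpDeriv g θ p ^ (2 * j) ∂τ) ∂μ.prod μ :=
        integral_mono hint ((hjoint.integral_prod_left.const_mul T⁻¹).const_mul _) hpt
    _ = T ^ (2 * j) * (T⁻¹ * ∫ θ, ∫ p, interpDeriv g θ p ^ (2 * j) ∂μ.prod μ ∂τ) := by
        rw [integral_const_mul, integral_const_mul, integral_integral_swap hjoint]
    _ ≤ T ^ (2 * j) * (T⁻¹ * ∫ _θ, (2 * (j : ℝ)) ^ j * ∫ x, (∑ i, g i x ^ 2) ^ j ∂μ ∂τ) := by
        refine mul_le_mul_of_nonneg_left (mul_le_mul_of_nonneg_left ?_ (by positivity))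
          (by positivity)
        exact integral_mono hjoint.integral_prod_right (integrable_const _) hlin
    _ = T ^ (2 * j) * (2 * (j : ℝ)) ^ j * ∫ x, (∑ i, g i x ^ 2) ^ j ∂μ := by
        rw [integral_const, hτ, measureReal_restrict_apply_univ, Real.volume_real_Ioc_of_le hT0.le,
          sub_zero, smul_eq_mul]
        field_simp
    _ ≤ _ := by
        refine mul_le_mul_of_nonneg_right ?_ (integral_nonneg fun x => by positivity)
        rw [pow_mul, ← mul_pow]
        refine pow_le_pow_left₀ (by positivity) ?_ j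
        have : T ^ 2 ≤ 4 := by
          have : T ≤ 2 := by rw [hT]; linarith [Real.pi_le_four]
          nlinarith
        nlinarith [(Nat.cast_nonneg j : (0:ℝ) ≤ j)]

omit [DecidableEq ι] in
/-- Splitting a moment over an unlikely event. -/
lemma integral_le_split {h : (ι → ℝ) → ℝ} (hh : Tame h) {s : Set (ι → ℝ)}
    (hs : MeasurableSet s) {a δ : ℝ} (ha : 0 ≤ a) (hsa : ∀ y ∈ s, h y ≤ a) (hδ : 0 < δ) :
    ∫ y, h y ∂gauss ι ≤ a + δ * ∫ y, h y ^ 2 ∂gauss ι + (gauss ι).real sᶜ / δ := by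
  have hind : Integrable (sᶜ.indicator fun _ => (1 : ℝ) / δ) (gauss ι) :=
    (integrable_const _).indicator hs.compl
  have hpt : ∀ y, h y ≤ a + δ * h y ^ 2 + sᶜ.indicator (fun _ => (1 : ℝ) / δ) y := by
    intro y
    by_cases hy : y ∈ s
    · simp only [Set.indicator_of_notMem (Set.notMem_compl_iff.2 hy), add_zero]
      nlinarith [hsa y hy, mul_nonneg hδ.le (sq_nonneg (h y))]
    · simp only [Set.indicator_of_mem (Set.mem_compl hy)]
      have e : δ * h y ^ 2 + 1 / δ - h y = δ * (h y - 1 / (2 * δ)) ^ 2 + 3 / (4 * δ) := by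
        field_simp; ring
      have : 0 ≤ δ * (h y - 1 / (2 * δ)) ^ 2 + 3 / (4 * δ) := by positivity
      linarith
  have i1 : Integrable (fun y => a + δ * h y ^ 2) (gauss ι) :=
    (integrable_const a).add (hh.sq.integrable.const_mul δ)
  refine (integral_mono (g := fun y => a + δ * h y ^ 2 + sᶜ.indicator (fun _ => (1 : ℝ) / δ) y)
    hh.integrable (i1.add hind) hpt).trans_eq ?_
  rw [integral_add i1 hind, integral_add (integrable_const a) (hh.sq.integrable.const_mul δ),
    integral_const_mul, integral_indicator_const _ hs.compl]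
  simp [div_eq_mul_inv]

/-- The moments of the squared norm. -/
lemma integral_one_add_sq_pow_le (N : ℕ) {m : ℕ} (hm : Fintype.card ι ≤ m) (hN : 0 < N)
    (hm0 : 0 < m) :
    ∫ y, (1 + ∑ i, y i ^ 2) ^ N ∂gauss ι ≤ 2 * (4 * (N : ℝ) * m) ^ N := by
  obtain ⟨M, rfl⟩ : ∃ M, N = M + 1 := ⟨N - 1, by omega⟩
  have hti : ∀ i, Tame fun y : ι → ℝ => y i ^ (2 * (M + 1)) := fun i => tame_pow (tame_coord i) _
  have hco : ∀ i, ∫ y, y i ^ (2 * (M + 1)) ∂gauss ι ≤ (2 * ((M + 1 : ℕ) : ℝ)) ^ (M + 1) := by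
    intro i
    have h := integral_linear_pow_le (fun l => if l = i then (1 : ℝ) else 0)
      (show 0 < M + 1 by omega)
    simpa using h
  have hpt : ∀ y : ι → ℝ, (1 + ∑ i, y i ^ 2) ^ (M + 1) ≤
      2 ^ M * (1 + (m : ℝ) ^ M * ∑ i, y i ^ (2 * (M + 1))) := by
    intro y
    refine (add_pow_le zero_le_one (sum_nonneg fun i _ => sq_nonneg _) (M + 1)).trans ?_
    rw [one_pow, Nat.add_sub_cancel]
    refine mul_le_mul_of_nonneg_left (add_le_add le_rfl ?_) (by positivity)
    refine (pow_sum_le_card_mul_sum_pow (fun i _ => sq_nonneg (y i)) M).trans ?_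
    simp only [pow_mul, card_univ]
    exact mul_le_mul_of_nonneg_right (by gcongr) (sum_nonneg fun i _ => by positivity)
  have t1 : Tame fun y : ι → ℝ => (m : ℝ) ^ M * ∑ i, y i ^ (2 * (M + 1)) :=
    (tame_sum univ fun i _ => hti i).const_mul _
  have hlhs : Tame fun y : ι → ℝ => (1 + ∑ i, y i ^ 2) ^ (M + 1) :=
    tame_pow ((tame_const 1).add (tame_sum univ fun i _ => tame_pow (tame_coord i) 2)) _
  refine (integral_mono hlhs.integrable (((tame_const (1 : ℝ)).add t1).const_mul _).integrable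
    hpt).trans ?_
  rw [integral_const_mul, integral_add (integrable_const 1) t1.integrable, integral_const_mul,
    integral_finsetSum _ fun i _ => (hti i).integrable]
  simp only [integral_const, smul_eq_mul, mul_one, probReal_univ]
  have hs := sum_le_sum (s := univ) fun i _ => hco i
  rw [sum_const, card_univ, nsmul_eq_mul] at hs
  obtain ⟨q, hq⟩ : ∃ q : ℝ, q = 2 * ((M + 1 : ℕ) : ℝ) := ⟨_, rfl⟩
  rw [← hq] at hs
  have hq1 : 1 ≤ q := by rw [hq]; push_cast; linarith [(Nat.cast_nonneg M : (0:ℝ) ≤ M)]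
  have hm1 : (1 : ℝ) ≤ m := by exact_mod_cast hm0
  have h1 : 1 ≤ (m : ℝ) ^ (M + 1) * q ^ (M + 1) :=
    one_le_mul_of_one_le_of_one_le (one_le_pow₀ hm1) (one_le_pow₀ hq1)
  calc 2 ^ M * (1 + (m : ℝ) ^ M * ∑ i, ∫ y, y i ^ (2 * (M + 1)) ∂gauss ι)
      ≤ 2 ^ M * (1 + (m : ℝ) ^ M * (m * q ^ (M + 1))) := by
        gcongr
        exact hs.trans (mul_le_mul_of_nonneg_right (by exact_mod_cast hm) (by positivity))
    _ = 2 ^ M * (1 + (m : ℝ) ^ (M + 1) * q ^ (M + 1)) := by ring
    _ ≤ 2 ^ M * (2 * ((m : ℝ) ^ (M + 1) * q ^ (M + 1))) := by gcongr; linarith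
    _ = (2 * q * m) ^ (M + 1) := by rw [mul_pow, mul_pow]; ring
    _ = (4 * ((M + 1 : ℕ) : ℝ) * m) ^ (M + 1) := by rw [hq]; ring_nf
    _ ≤ _ := le_mul_of_one_le_left (by positivity) one_le_two

end Vale.Agent.P146.Power.Moments
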