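import Vale.Agent.P146.Power.Eigen
import Vale.Agent.P146.Power.Good.Moments

/-!
The traces of the Chebyshev polynomials of the rescaled coupling: derivative, integration by parts
and bounds through the spectrum.
-/

namespace Vale.Agent.P146.Power.Traces

open MeasureTheory ProbabilityTheory Finset Matrix
open Vale.Agent.P157 (gauss)
open Vale.Agent.P157.Parisi (Tame GradOf tame_const tame_coord tame_sum gauss_ibp)

variable {n : ℕ}

/-- The rescaled coupling constant. -/
noncomputable def co (n K : ℕ) : ℝ := ((1 + eta K) * Real.sqrt (2 * n))⁻¹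

/-- The normalised trace. -/
noncomputable def tau (K m : ℕ) (G : Arr n) : ℝ := (uMat (jMat K G) m).trace / n

/-- The sum of the products arising in the derivative of a trace. -/
noncomputable def pMat (A : Matrix (Fin n) (Fin n) ℝ) (m : ℕ) : Matrix (Fin n) (Fin n) ℝ :=
  ∑ c ∈ range m, uMat A (m - 1 - c) * uMat A c

/-- The derivative of the Chebyshev polynomial in a direction. -/
noncomputable def dMat (A B : Matrix (Fin n) (Fin n) ℝ) (m : ℕ) : Matrix (Fin n) (Fin n) ℝ :=
  ∑ c ∈ range m, uMat A c * B * uMat A (m - 1 - c)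

/-- The partial derivatives of a normalised trace. -/
noncomputable def grad (K m : ℕ) (e : Edge n) (G : Arr n) : ℝ :=
  co n K / n * (pMat (jMat K G) m e.1 e.2 + pMat (jMat K G) m e.2 e.1)

lemma dMat_rec (A B : Matrix (Fin n) (Fin n) ℝ) (m : ℕ) :
    dMat A B (m + 2) = B * uMat A (m + 1) + A * dMat A B (m + 1) - dMat A B m := by
  have hA : ∀ c ∈ range (m + 1), A * (uMat A c * B * uMat A (m - c)) =
      uMat A (c + 1) * B * uMat A (m - c) +
        (if c = 0 then 0 else uMat A (c - 1)) * B * uMat A (m - c) := by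
    intro c _
    rw [← Matrix.add_mul, ← Matrix.add_mul, ← Matrix.mul_assoc, ← Matrix.mul_assoc]
    rcases c with _ | c
    · simp [uMat]
    · simp [uMat]
  simp only [dMat, Nat.add_sub_cancel, show m + 2 - 1 = m + 1 by omega]
  rw [sum_range_succ' (fun c => uMat A c * B * uMat A (m + 1 - c)) (m + 1), mul_sum,
    sum_congr rfl hA, sum_add_distrib,
    sum_range_succ' (fun c => (if c = 0 then 0 else uMat A (c - 1)) * B * uMat A (m - c)) m]
  have e : ∀ c, m - (c + 1) = m - 1 - c := fun c => by omega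
  simp only [uMat, Nat.succ_ne_zero, if_false, if_true, Nat.add_sub_add_right, Nat.sub_zero,
    Nat.add_sub_cancel, Matrix.zero_mul, add_zero, Matrix.one_mul]
  rw [sum_congr rfl fun c (_ : c ∈ range m) =>
    congrArg (fun k => uMat A c * B * uMat A k) (e c)]
  abel

lemma uMat_entry_hasDerivAt (A B : Matrix (Fin n) (Fin n) ℝ) :
    ∀ m i j, HasDerivAt (fun t : ℝ => uMat (A + t • B) m i j) (dMat A B m i j) 0
  | 0, i, j => by simpa [dMat, uMat] using hasDerivAt_const (0 : ℝ) ((1 : Matrix (Fin n) (Fin n) ℝ) i j)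
  | 1, i, j => by
    simpa [dMat, uMat] using ((hasDerivAt_id (0 : ℝ)).mul_const (B i j)).const_add (A i j)
  | m + 2, i, j => by
    have h := (HasDerivAt.fun_sum (u := univ) fun k _ =>
      (((hasDerivAt_id (0 : ℝ)).mul_const (B i k)).const_add (A i k)).fun_mul
        (uMat_entry_hasDerivAt A B (m + 1) k j)).fun_sub (uMat_entry_hasDerivAt A B m i j)
    rw [dMat_rec]
    simpa [uMat, Matrix.mul_apply, sum_add_distrib] using h

lemma trace_dMat (A B : Matrix (Fin n) (Fin n) ℝ) (m : ℕ) :
    (dMat A B m).trace = ∑ i, ∑ j, B i j * pMat A m j i := by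
  simp only [dMat, pMat, trace_sum, Matrix.sum_apply, mul_sum]
  calc ∑ c ∈ range m, (uMat A c * B * uMat A (m - 1 - c)).trace
      = ∑ c ∈ range m, ∑ i, ∑ j, B i j * (uMat A (m - 1 - c) * uMat A c) j i := by
        refine sum_congr rfl fun c _ => ?_
        rw [Matrix.trace_mul_cycle, Matrix.trace_mul_comm]
        simp [Matrix.trace, Matrix.mul_apply]
    _ = _ := by
        rw [sum_comm]
        exact sum_congr rfl fun i _ => sum_comm

lemma jMat_apply (K : ℕ) (G : Arr n) (i j : Fin n) :
    jMat K G i j = co n K * (G (i, j) + G (j, i)) := by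
  simp [jMat, co, div_eq_inv_mul]

lemma jMat_line (K : ℕ) (y v : Arr n) (t : ℝ) :
    jMat K (fun e => y e + t * v e) = jMat K y + t • jMat K v := by
  ext i j
  simp [jMat_apply]
  ring

lemma tame_jMat (K : ℕ) (i j : Fin n) : Tame fun G : Arr n => jMat K G i j := by
  simp only [jMat_apply]
  exact ((tame_coord _).add (tame_coord _)).const_mul _

lemma tame_uMat (K : ℕ) : ∀ m i j, Tame fun G : Arr n => uMat (jMat K G) m i j
  | 0, i, j => by simpa [uMat] using tame_const _
  | 1, i, j => by simpa [uMat] using tame_jMat K i j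
  | m + 2, i, j => by
    simpa [uMat, Matrix.mul_apply] using
      (tame_sum univ fun k _ => (tame_jMat K i k).mul (tame_uMat K (m + 1) k j)).sub
        (tame_uMat K m i j)

lemma tame_tau (K m : ℕ) : Tame (tau (n := n) K m) := by
  show Tame fun G => tau K m G
  simp only [tau, Matrix.trace, Matrix.diag, div_eq_inv_mul]
  exact (tame_sum univ fun i _ => tame_uMat K m i i).const_mul _

lemma tame_grad (K m : ℕ) (e : Edge n) : Tame (grad (n := n) K m e) := by
  show Tame fun G => grad K m e G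
  simp only [grad, pMat, Matrix.sum_apply, Matrix.mul_apply]
  exact ((tame_sum _ fun c _ => tame_sum univ fun k _ =>
    (tame_uMat K _ e.1 k).mul (tame_uMat K c k e.2)).add (tame_sum _ fun c _ =>
      tame_sum univ fun k _ => (tame_uMat K _ e.2 k).mul (tame_uMat K c k e.1))).const_mul _

lemma gradOf_tau (K m : ℕ) : GradOf (tau (n := n) K m) (grad K m) := by
  intro y v
  have h := (HasDerivAt.fun_sum (u := univ) fun i _ =>
    uMat_entry_hasDerivAt (jMat K y) (jMat K v) m i i).div_const (n : ℝ)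
  have e : ∑ i, dMat (jMat K y) (jMat K v) m i i = co n K * ∑ e : Edge n, v e *
      (pMat (jMat K y) m e.1 e.2 + pMat (jMat K y) m e.2 e.1) := by
    refine (trace_dMat (jMat K y) (jMat K v) m).trans ?_
    simp only [Fintype.sum_prod_type, jMat_apply, mul_add, add_mul, sum_add_distrib, mul_sum]
    rw [add_comm]
    refine congrArg₂ (· + ·) ?_ (sum_congr rfl fun i _ => sum_congr rfl fun j _ => by ring)
    rw [sum_comm]
    exact sum_congr rfl fun i _ => sum_congr rfl fun j _ => by ring
  rw [e] at h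
  refine (h.congr_deriv ?_).congr_of_eventuallyEq (.of_forall fun t => ?_)
  · simp only [grad, mul_sum, sum_div]
    exact sum_congr rfl fun e _ => by ring
  · simp [tau, jMat_line, Matrix.trace]

/-- The derivative of an entry of a polynomial. -/
lemma gradOf_entry (K m : ℕ) (i j : Fin n) :
    GradOf (fun G : Arr n => uMat (jMat K G) m i j) fun e G =>
      co n K * ∑ c ∈ range m,
        (uMat (jMat K G) c i e.1 * uMat (jMat K G) (m - 1 - c) e.2 j +
          uMat (jMat K G) c i e.2 * uMat (jMat K G) (m - 1 - c) e.1 j) := by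
  intro y v
  have h := uMat_entry_hasDerivAt (jMat K y) (jMat K v) m i j
  refine (h.congr_deriv ?_).congr_of_eventuallyEq (.of_forall fun t => ?_)
  · let U : ℕ → Fin n → Fin n → ℝ := fun c a b => uMat (jMat K y) c a b
    calc dMat (jMat K y) (jMat K v) m i j
        = ∑ c ∈ range m, ∑ a, ∑ b,
            U c i a * (co n K * (v (a, b) + v (b, a))) * U (m - 1 - c) b j := by
          simp only [dMat, Matrix.sum_apply, Matrix.mul_apply, jMat_apply, sum_mul, U]
          exact sum_congr rfl fun c _ => sum_comm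
      _ = ∑ c ∈ range m, ∑ a, ∑ b, v (a, b) *
            (co n K * (U c i a * U (m - 1 - c) b j + U c i b * U (m - 1 - c) a j)) := by
          refine sum_congr rfl fun c _ => ?_
          simp only [mul_add, add_mul, sum_add_distrib]
          refine congrArg₂ (· + ·) (sum_congr rfl fun a _ => sum_congr rfl fun b _ => by ring) ?_
          rw [sum_comm]
          exact sum_congr rfl fun a _ => sum_congr rfl fun b _ => by ring
      _ = _ := by
          simp only [Fintype.sum_prod_type, mul_sum, U]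
          rw [sum_comm]
          exact sum_congr rfl fun a _ => sum_comm
  · simp [jMat_line]

/-- The mean of a trace through the means of the traces of products of lower degree. -/
theorem integral_tau_add_two (K m : ℕ) :
    ∫ G, tau K (m + 2) G ∂gauss (Edge n) =
      2 * co n K ^ 2 / n * (∑ c ∈ range (m + 1),
        ((n : ℝ) ^ 2 * ∫ G, tau K c G * tau K (m - c) G ∂gauss (Edge n)) +
        ∑ c ∈ range (m + 1), ∫ G, ∑ a, ∑ b,
          uMat (jMat K G) c a b * uMat (jMat K G) (m - c) a b ∂gauss (Edge n))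
        - ∫ G, tau K m G ∂gauss (Edge n) := by
  set μ := gauss (Edge n) with hμ
  let u : ℕ → Fin n → Fin n → Arr n → ℝ := fun c a b G => uMat (jMat K G) c a b
  have hu : ∀ c a b, Tame (u c a b) := fun c a b => tame_uMat K c a b
  let F : Edge n → Arr n → ℝ := fun e G => u (m + 1) e.1 e.2 G + u (m + 1) e.2 e.1 G
  let D : Edge n → Arr n → ℝ := fun e G => co n K * ∑ c ∈ range (m + 1),
    (u c e.1 e.1 G * u (m - c) e.2 e.2 G + u c e.2 e.2 G * u (m - c) e.1 e.1 G
      + u c e.2 e.1 G * u (m - c) e.2 e.1 G + u c e.1 e.2 G * u (m - c) e.1 e.2 G)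
  have hF : ∀ e, Tame (F e) := fun e => (hu _ _ _).add (hu _ _ _)
  have hDt : ∀ e, Tame (D e) := fun e => (tame_sum _ fun c _ =>
    ((((hu _ _ _).mul (hu _ _ _)).add ((hu _ _ _).mul (hu _ _ _))).add
      ((hu _ _ _).mul (hu _ _ _))).add ((hu _ _ _).mul (hu _ _ _))).const_mul _
  have hib : ∀ e, ∫ G, G e * F e G ∂μ = ∫ G, D e G ∂μ := by
    intro e
    have hg : ∀ (i j : Fin n) (e' : Edge n), Tame fun G : Arr n => co n K * ∑ c ∈ range (m + 1),
        (u c i e'.1 G * u (m + 1 - 1 - c) e'.2 j G + u c i e'.2 G * u (m + 1 - 1 - c) e'.1 j G) :=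
      fun i j e' => (tame_sum _ fun c _ =>
        ((hu _ _ _).mul (hu _ _ _)).add ((hu _ _ _).mul (hu _ _ _))).const_mul _
    have hgr : GradOf (F e) fun e' G =>
        co n K * (∑ c ∈ range (m + 1), (u c e.1 e'.1 G * u (m + 1 - 1 - c) e'.2 e.2 G
          + u c e.1 e'.2 G * u (m + 1 - 1 - c) e'.1 e.2 G)) +
        co n K * (∑ c ∈ range (m + 1), (u c e.2 e'.1 G * u (m + 1 - 1 - c) e'.2 e.1 G
          + u c e.2 e'.2 G * u (m + 1 - 1 - c) e'.1 e.1 G)) := by
      intro y v
      refine ((gradOf_entry K (m + 1) e.1 e.2 y v).fun_add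
        (gradOf_entry K (m + 1) e.2 e.1 y v)).congr_deriv ?_
      simp only [← sum_add_distrib, ← mul_add]
      rfl
    refine (gauss_ibp (hF e) (fun e' => (hg _ _ e').add (hg _ _ e')) hgr e).trans ?_
    refine integral_congr_ae (.of_forall fun G => ?_)
    simp only [D, Nat.add_sub_cancel, ← mul_add, ← sum_add_distrib]
    exact congrArg _ (sum_congr rfl fun c _ => by ring)
  have hpt : ∀ G : Arr n, tau K (m + 2) G = co n K / n * (∑ e, G e * F e G) - tau K m G := by
    intro G
    have e1 : (jMat K G * uMat (jMat K G) (m + 1)).trace = co n K * ∑ e, G e * F e G := by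
      simp only [Matrix.trace, Matrix.diag, Matrix.mul_apply, jMat_apply, F, u,
        Fintype.sum_prod_type, mul_add, add_mul, sum_add_distrib, mul_sum]
      rw [add_comm]
      refine congrArg₂ (· + ·) ?_ (sum_congr rfl fun i _ => sum_congr rfl fun j _ => by ring)
      rw [sum_comm]
      exact sum_congr rfl fun i _ => sum_congr rfl fun j _ => by ring
    simp only [tau]
    rw [uMat, Matrix.trace_sub, e1, sub_div]
    ring
  have hsum : ∫ G, ∑ e, G e * F e G ∂μ = ∑ e, ∫ G, D e G ∂μ := by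
    rw [integral_finsetSum _ fun e _ => ((tame_coord e).mul (hF e)).integrable]
    exact sum_congr rfl fun e _ => hib e
  have hD : ∀ G : Arr n, ∑ e, D e G = 2 * co n K * ((n : ℝ) ^ 2 *
      ∑ c ∈ range (m + 1), tau K c G * tau K (m - c) G +
      ∑ c ∈ range (m + 1), ∑ a, ∑ b,
          uMat (jMat K G) c a b * uMat (jMat K G) (m - c) a b) := by
    intro G
    have hn2 : ∀ c d, (n : ℝ) ^ 2 * (tau K c G * tau K d G) =
        (uMat (jMat K G) c).trace * (uMat (jMat K G) d).trace := by
      intro c d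
      rcases n.eq_zero_or_pos with rfl | hn
      · simp [tau, Matrix.trace]
      · simp only [tau]; field_simp
    have hc : ∀ c, (∑ e : Edge n, (u c e.1 e.1 G * u (m - c) e.2 e.2 G
        + u c e.2 e.2 G * u (m - c) e.1 e.1 G + u c e.2 e.1 G * u (m - c) e.2 e.1 G
        + u c e.1 e.2 G * u (m - c) e.1 e.2 G)) = 2 * ((n : ℝ) ^ 2 * (tau K c G * tau K (m - c) G))
          + 2 * ∑ a, ∑ b, u c a b G * u (m - c) a b G := by
      intro c
      rw [hn2]
      simp only [Fintype.sum_prod_type, sum_add_distrib, Matrix.trace, Matrix.diag, sum_mul_sum, u]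
      rw [sum_comm (f := fun a b =>
        uMat (jMat K G) c b b * uMat (jMat K G) (m - c) a a), sum_comm (f := fun a b =>
        uMat (jMat K G) c b a * uMat (jMat K G) (m - c) b a)]
      ring
    calc ∑ e, D e G = co n K * ∑ c ∈ range (m + 1),
          (2 * ((n : ℝ) ^ 2 * (tau K c G * tau K (m - c) G))
            + 2 * ∑ a, ∑ b, u c a b G * u (m - c) a b G) := by
          simp only [D, ← mul_sum]
          rw [sum_comm, sum_congr rfl fun c _ => hc c]
      _ = _ := by
          simp only [sum_add_distrib, ← mul_sum, u]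
          ring
  have i1 : Tame fun G : Arr n => co n K / n * ∑ e, G e * F e G :=
    (tame_sum univ fun e _ => (tame_coord e).mul (hF e)).const_mul _
  simp only [hpt]
  rw [integral_sub i1.integrable (tame_tau K m).integrable, integral_const_mul, hsum,
    ← integral_finsetSum _ fun e _ => (hDt e).integrable]
  simp only [hD]
  have t1 : ∀ c, Tame fun G : Arr n => tau K c G * tau K (m - c) G :=
    fun c => (tame_tau K c).mul (tame_tau K _)
  have t2 : ∀ c, Tame fun G : Arr n => ∑ a, ∑ b,
      uMat (jMat K G) c a b * uMat (jMat K G) (m - c) a b :=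
    fun c => tame_sum univ fun a _ => tame_sum univ fun b _ => (hu c a b).mul (hu _ a b)
  rw [integral_const_mul, integral_add ((tame_sum _ fun c _ => t1 c).const_mul _).integrable
      (tame_sum _ fun c _ => t2 c).integrable,
    integral_const_mul, integral_finsetSum _ fun c _ => (t1 c).integrable,
    integral_finsetSum _ fun c _ => (t2 c).integrable, mul_sum]
  ring

lemma integral_tau_zero (K : ℕ) (hn : 0 < n) : ∫ G, tau K 0 G ∂gauss (Edge n) = 1 := by
  have : (n : ℝ) ≠ 0 := by positivity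
  simp [tau, uMat, this]

lemma integral_tau_one (K : ℕ) : ∫ G, tau K 1 G ∂gauss (Edge n) = 0 := by
  have h : ∀ e : Edge n, ∫ G, G e ∂gauss (Edge n) = 0 := by
    intro e
    have h := gauss_ibp (tame_const (1 : ℝ)) (fun _ => tame_const (0 : ℝ))
      (fun y v => by simpa using hasDerivAt_const (0 : ℝ) (1 : ℝ)) e
    simpa using h
  have hi : ∀ e : Edge n, Integrable (fun G => G e) (gauss (Edge n)) :=
    fun e => (tame_coord e).integrable
  simp only [tau, uMat, Matrix.trace, Matrix.diag, jMat_apply, sum_div]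
  rw [integral_finsetSum _ fun i _ => ((((hi _).fun_add (hi _)).const_mul _).div_const _)]
  refine sum_eq_zero fun i _ => ?_
  rw [integral_div, integral_const_mul, integral_add (hi _) (hi _), h]
  simp

/-! ### The spectrum -/

lemma jMat_isHermitian (K : ℕ) (G : Arr n) : (jMat K G).IsHermitian := by
  ext i j
  simp [jMat, add_comm]

/-- The product appearing in the derivative, at an eigenvalue. -/
noncomputable def pEig (m : ℕ) (x : ℝ) : ℝ := ∑ c ∈ range m, cheb (m - 1 - c) x * cheb c x

lemma pMat_eq {J : Matrix (Fin n) (Fin n) ℝ} (E : Eig J) (m : ℕ) :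
    pMat J m = E.apply fun a => pEig m (E.lam a) := by
  simp only [pMat, E.uMat_eq, E.apply_mul]
  simp only [Eig.apply, ← Finset.sum_mul, ← Finset.mul_sum]
  congr 2
  ext a b
  by_cases h : a = b
  · subst h; simp [pEig, Matrix.sum_apply]
  · simp [Matrix.sum_apply, h]

lemma apply_transpose {J : Matrix (Fin n) (Fin n) ℝ} (E : Eig J) (f : Fin n → ℝ) :
    (E.apply f)ᵀ = E.apply f := by
  rw [Eig.apply, transpose_mul, transpose_mul, transpose_transpose, diagonal_transpose,
    Matrix.mul_assoc]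

lemma sum_mul_apply {J : Matrix (Fin n) (Fin n) ℝ} (E : Eig J) (f g : Fin n → ℝ) :
    ∑ a, ∑ b, E.apply f a b * E.apply g a b = ∑ i, f i * g i := by
  rw [← E.trace_apply fun i => f i * g i, ← E.apply_mul]
  simp only [Matrix.trace, Matrix.diag, Matrix.mul_apply]
  refine sum_congr rfl fun a _ => sum_congr rfl fun b _ => ?_
  rw [← Matrix.transpose_apply (E.apply g) a b, apply_transpose]

lemma sum_sq_lam {J : Matrix (Fin n) (Fin n) ℝ} (E : Eig J) :
    ∑ i, E.lam i ^ 2 = ∑ a, ∑ b, J a b ^ 2 := by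
  have h := sum_mul_apply E E.lam E.lam
  rw [E.apply_lam] at h
  simpa [sq] using h.symm

lemma eta_pos (K : ℕ) : 0 < eta K := by unfold eta; positivity

lemma co_sq (hn : 0 < n) (K : ℕ) :
    co n K ^ 2 = ((1 + eta K) ^ 2)⁻¹ / (2 * n) := by
  rw [co, inv_pow, mul_pow, Real.sq_sqrt (by positivity)]
  field_simp

lemma co_sq_le (hn : 0 < n) (K : ℕ) : co n K ^ 2 ≤ 1 / (2 * n) := by
  rw [co_sq hn]
  gcongr
  exact inv_le_one_of_one_le₀ (one_le_pow₀ (by linarith [eta_pos K]))

lemma one_add_abs_lam_le (hn : 0 < n) (K : ℕ) (G : Arr n) (E : Eig (jMat K G)) (i : Fin n) :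
    1 + |E.lam i| ≤ 4 * (1 + ∑ e, G e ^ 2) := by
  have h1 : E.lam i ^ 2 ≤ ∑ a, ∑ b, jMat K G a b ^ 2 :=
    (single_le_sum (f := fun i => E.lam i ^ 2) (fun _ _ => sq_nonneg _) (mem_univ i)).trans_eq
      (sum_sq_lam E)
  have h2 : ∑ a, ∑ b, jMat K G a b ^ 2 ≤ 2 * ∑ e, G e ^ 2 := by
    have hc : co n K ^ 2 ≤ 1 / 2 := (co_sq_le hn K).trans (by
      gcongr; exact le_mul_of_one_le_right (by norm_num) (by exact_mod_cast hn))
    calc ∑ a, ∑ b, jMat K G a b ^ 2
        ≤ ∑ a, ∑ b, (G (a, b) ^ 2 + G (b, a) ^ 2) := by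
          refine sum_le_sum fun a _ => sum_le_sum fun b _ => ?_
          rw [jMat_apply, mul_pow]
          refine (mul_le_mul_of_nonneg_right hc (sq_nonneg _)).trans ?_
          linarith [two_mul_le_add_sq (G (a, b)) (G (b, a))]
      _ = 2 * ∑ e, G e ^ 2 := by
          simp only [sum_add_distrib, Fintype.sum_prod_type]
          rw [sum_comm (f := fun a b => G (b, a) ^ 2)]
          ring
  have := two_mul_le_add_sq |E.lam i| 1
  rw [sq_abs] at this
  linarith [sum_nonneg fun e (_ : e ∈ univ) => sq_nonneg (G e)]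

lemma abs_cheb_le_pow (x : ℝ) : ∀ m, |cheb m x| ≤ (1 + |x|) ^ m
  | 0 => by simp [cheb_zero]
  | 1 => by simp [cheb_one]
  | m + 2 => by
    rw [cheb_add_two]
    refine (abs_sub _ _).trans ?_
    rw [abs_mul]
    have h1 := mul_le_mul_of_nonneg_left (abs_cheb_le_pow x (m + 1)) (abs_nonneg x)
    have h2 := abs_cheb_le_pow x m
    have h3 : 0 ≤ (1 + |x|) ^ m * |x| := by positivity
    have e1 : |x| * (1 + |x|) ^ (m + 1) = (1 + |x|) ^ m * |x| + (1 + |x|) ^ m * |x| ^ 2 := by ring
    have e2 : (1 + |x|) ^ (m + 2) =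
        (1 + |x|) ^ m * (2 * |x|) + (1 + |x|) ^ m * |x| ^ 2 + (1 + |x|) ^ m := by ring
    linarith

lemma abs_pEig_le {x : ℝ} (hx : |x| ≤ 2) (m : ℕ) : |pEig m x| ≤ (m : ℝ) ^ 3 := by
  refine (abs_sum_le_sum_abs _ _).trans ((sum_le_sum fun c hc => ?_).trans_eq
    (show ∑ _c ∈ range m, (m : ℝ) ^ 2 = (m : ℝ) ^ 3 by simp; ring))
  have hcm := mem_range.1 hc
  rw [abs_mul, sq]
  refine mul_le_mul ((abs_cheb_le hx _).trans ?_) ((abs_cheb_le hx _).trans ?_) (abs_nonneg _)
    (Nat.cast_nonneg _)
  · exact_mod_cast (show m - 1 - c + 1 ≤ m by omega)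
  · exact_mod_cast (show c + 1 ≤ m by omega)

lemma abs_pEig_le_pow (x : ℝ) (m : ℕ) : |pEig m x| ≤ (m : ℝ) * (1 + |x|) ^ m := by
  refine (abs_sum_le_sum_abs _ _).trans ((sum_le_sum fun c hc => ?_).trans_eq
    (show ∑ _c ∈ range m, (1 + |x|) ^ m = (m : ℝ) * (1 + |x|) ^ m by simp))
  have hcm := mem_range.1 hc
  rw [abs_mul]
  refine (mul_le_mul (abs_cheb_le_pow x _) (abs_cheb_le_pow x _) (abs_nonneg _)
    (by positivity)).trans ?_
  rw [← pow_add]
  exact pow_le_pow_right₀ (le_add_of_nonneg_right (abs_nonneg x)) (by omega)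

/-- The squared gradient is bounded by the spectrum. -/
lemma gsq_le (hn : 0 < n) (K m : ℕ) (G : Arr n) (E : Eig (jMat K G)) {B : ℝ}
    (hB : ∀ i, pEig m (E.lam i) ^ 2 ≤ B) :
    ∑ e, grad K m e G ^ 2 ≤ 2 * B / (n : ℝ) ^ 2 := by
  set P := pMat (jMat K G) m with hP
  have hPs : ∑ a, ∑ b, P a b ^ 2 ≤ n * B := by
    rw [hP, pMat_eq E]
    calc ∑ a, ∑ b, E.apply (fun i => pEig m (E.lam i)) a b ^ 2
        = ∑ i, pEig m (E.lam i) ^ 2 := by
          simp only [sq]; exact sum_mul_apply E _ _
      _ ≤ ∑ _i : Fin n, B := sum_le_sum fun i _ => hB i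
      _ = _ := by simp
  calc ∑ e, grad K m e G ^ 2
      ≤ ∑ a, ∑ b, co n K ^ 2 / (n : ℝ) ^ 2 * (2 * (P a b ^ 2 + P b a ^ 2)) := by
        rw [Fintype.sum_prod_type]
        refine sum_le_sum fun a _ => sum_le_sum fun b _ => ?_
        rw [grad, mul_pow, div_pow]
        exact mul_le_mul_of_nonneg_left add_sq_le (by positivity)
    _ = co n K ^ 2 / (n : ℝ) ^ 2 * (4 * ∑ a, ∑ b, P a b ^ 2) := by
        simp only [← mul_sum, sum_add_distrib]
        rw [sum_comm (f := fun a b => P b a ^ 2)]
        ring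
    _ ≤ 1 / (2 * n) / (n : ℝ) ^ 2 * (4 * (n * B)) := by
        gcongr
        exact co_sq_le hn K
    _ = _ := by field_simp; ring

/-- The sum of products of entries of two polynomials is bounded by the spectrum. -/
lemma entries_le (K c d : ℕ) (G : Arr n) (E : Eig (jMat K G)) {B : ℝ}
    (hB : ∀ i, |cheb c (E.lam i) * cheb d (E.lam i)| ≤ B) :
    |∑ a, ∑ b, uMat (jMat K G) c a b * uMat (jMat K G) d a b| ≤ n * B := by
  rw [E.uMat_eq, E.uMat_eq, sum_mul_apply]
  refine (abs_sum_le_sum_abs _ _).trans ((sum_le_sum fun i _ => hB i).trans_eq (by simp))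

end Vale.Agent.P146.Power.Traces
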