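import Vale.Agent.P146.Power.Defs
import Vale.Agent.P150.Matrix

/-!
The rescaled symmetric array has norm at most two outside a set of tiny probability: the exponential
moment of a soft maximum of the quadratic form over finitely many unit vectors, and separability.
-/

namespace Vale.Agent.P146.Power

open MeasureTheory ProbabilityTheory Real Finset
open Vale.Agent.P157 (gauss)
open Vale.Agent.P150 (stdGauss softMax le_softMax softMax_le soft_max_comparison
  integrable_of_exp_bound integral_exp_sq integrable_exp_sq)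
open scoped ENNReal

variable {n : ℕ}

/-- The arrays whose rescaled matrix has norm at most two. -/
def normSet (n K : ℕ) : Set (Arr n) :=
  {G | ∀ x : Fin n → ℝ, |∑ i, ∑ j, x i * jMat K G i j * x j| ≤ 2 * ∑ i, x i ^ 2}

lemma continuous_jQuad (K : ℕ) (x : Fin n → ℝ) :
    Continuous fun G : Arr n => ∑ i, ∑ j, x i * jMat K G i j * x j := by
  simp only [jMat, Matrix.of_apply]
  fun_prop

lemma isClosed_normSet (n K : ℕ) : IsClosed (normSet n K) := by
  simp only [normSet, Set.ofPred_forall]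
  exact isClosed_iInter fun x => isClosed_le (continuous_jQuad K x).abs continuous_const

lemma measurableSet_normSet (n K : ℕ) : MeasurableSet (normSet n K) :=
  (isClosed_normSet n K).measurableSet

/-- The coefficients of the signed quadratic form at `x`. -/
noncomputable def qCoef (s : ℝ) (x : Fin n → ℝ) (e : Edge n) : ℝ :=
  s * Real.sqrt (2 / n) * (x e.1 * x e.2)

/-- The signed quadratic form. -/
noncomputable def qForm (s : ℝ) (G : Arr n) (x : Fin n → ℝ) : ℝ := ∑ e, qCoef s x e * G e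

lemma jMat_quad (K : ℕ) (G : Arr n) (x : Fin n → ℝ) :
    (∑ i, ∑ j, x i * jMat K G i j * x j) * (1 + eta K) = qForm 1 G x := by
  have h1 : 0 < 1 + eta K := by rw [eta]; positivity
  rcases Nat.eq_zero_or_pos n with rfl | hn
  · simp [qForm]
  have hn' : (0 : ℝ) < n := Nat.cast_pos.2 hn
  have hs : Real.sqrt (2 / n) = 2 / Real.sqrt (2 * n) := by
    rw [eq_div_iff (Real.sqrt_pos.2 (by positivity)).ne', ← Real.sqrt_mul (by positivity),
      show (2 : ℝ) / n * (2 * n) = 2 ^ 2 by field_simp, Real.sqrt_sq zero_le_two]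
  have e : ∀ i j, x i * jMat K G i j * x j * (1 + eta K)
      = (Real.sqrt (2 * n))⁻¹ * (x i * x j * G (i, j))
        + (Real.sqrt (2 * n))⁻¹ * (x j * x i * G (j, i)) := fun i j => by
    simp only [jMat, Matrix.of_apply]
    field_simp
  simp only [sum_mul, e, sum_add_distrib]
  conv_lhs => arg 2; rw [sum_comm]
  rw [qForm, Fintype.sum_prod_type, ← sum_add_distrib]
  refine sum_congr rfl fun i _ => ?_
  rw [← sum_add_distrib]
  refine sum_congr rfl fun j _ => ?_
  rw [qCoef, hs]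
  ring

lemma qForm_smul (s c : ℝ) (G : Arr n) (x : Fin n → ℝ) :
    qForm s G (fun i => c * x i) = c ^ 2 * qForm s G x := by
  simp only [qForm, qCoef, mul_sum]
  exact sum_congr rfl fun e _ => by ring

lemma qForm_neg (s : ℝ) (G : Arr n) (x : Fin n → ℝ) : qForm (-s) G x = -qForm s G x := by
  simp only [qForm, qCoef, ← sum_neg_distrib]
  exact sum_congr rfl fun e _ => by ring

lemma sum_qCoef_sq {s : ℝ} (hs : s ^ 2 = 1) {x : Fin n → ℝ} (hx : ∑ i, x i ^ 2 = 1) :
    ∑ e, qCoef s x e ^ 2 = 2 / n := by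
  simp only [qCoef, mul_pow, hs, one_mul, Real.sq_sqrt (show (0 : ℝ) ≤ 2 / n by positivity),
    ← mul_sum, Fintype.sum_prod_type, hx, mul_one]

lemma qCoef_incr {s : ℝ} (hs : s ^ 2 = 1) {x y : Fin n → ℝ} (hx : ∑ i, x i ^ 2 = 1)
    (hy : ∑ i, y i ^ 2 = 1) :
    ∑ e, (qCoef s x e - qCoef s y e) ^ 2
      ≤ ∑ i, (2 / Real.sqrt n * x i - 2 / Real.sqrt n * y i) ^ 2 := by
  set u := ∑ i, x i * y i with hu
  have e1 : ∀ e : Edge n, (qCoef s x e - qCoef s y e) ^ 2 = 2 / n *
      (x e.1 ^ 2 * x e.2 ^ 2 + y e.1 ^ 2 * y e.2 ^ 2 - 2 * (x e.1 * y e.1 * (x e.2 * y e.2))) := by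
    intro e
    rw [qCoef, qCoef, ← mul_sub, mul_pow, mul_pow, hs,
      Real.sq_sqrt (show (0 : ℝ) ≤ 2 / n by positivity)]
    ring
  have e2 : ∀ i, (2 / Real.sqrt n * x i - 2 / Real.sqrt n * y i) ^ 2
      = 4 / n * (x i ^ 2 + y i ^ 2 - 2 * (x i * y i)) := fun i => by
    rw [← mul_sub, mul_pow, div_pow, Real.sq_sqrt (Nat.cast_nonneg n)]
    ring
  simp only [e1, e2, Fintype.sum_prod_type, ← mul_sum, sum_add_distrib, sum_sub_distrib,
    ← sum_mul, hx, hy, ← hu]
  have h0 : (0 : ℝ) ≤ 1 / n := by positivity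
  have := mul_nonneg h0 (sq_nonneg (1 - u))
  ring_nf at this ⊢
  nlinarith

/-- Finitely many unit vectors. -/
lemma gauss_finite_qForm_le (hn : 0 < n) {s : ℝ} (hs : s ^ 2 = 1) {X : Type} [Fintype X]
    [Nonempty X] (v : X → Fin n → ℝ) (hv : ∀ x, ∑ i, v x i ^ 2 = 1) {η : ℝ} (hη : 0 < η)
    (hη1 : η ≤ 1) :
    (gauss (Edge n)).real {G | ∃ x, 2 * (1 + η) < qForm s G (v x)}
      ≤ Real.exp (1 - η ^ 2 * n / 5) := by
  classical
  set sn := Real.sqrt n with hsn
  have hn' : (0 : ℝ) < n := by exact_mod_cast hn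
  have hsn0 : 0 < sn := Real.sqrt_pos.2 hn'
  set l := η * n / 5 with hl
  have hl0 : 0 < l := by positivity
  have hsn2 : sn * sn = n := Real.mul_self_sqrt hn'.le
  have hlog : 0 ≤ Real.log (Fintype.card X) :=
    Real.log_nonneg (by exact_mod_cast Fintype.card_pos)
  set T := l * (Real.log (Fintype.card X) + 1) with hTdef
  have hT : 0 < T := by positivity
  set A : X → (Edge n ⊕ Fin n) → ℝ := fun x => Sum.elim (qCoef s (v x)) 0 with hA
  set B : X → (Edge n ⊕ Fin n) → ℝ := fun x => Sum.elim 0 (fun i => 2 / sn * v x i) with hB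
  have hcmp := soft_max_comparison A B (2 / n) hl0 hT
    (fun a b => by simp [hA, hB, Fintype.sum_sum_type])
    (fun a b => by simpa [hA, hB, Fintype.sum_sum_type] using qCoef_incr hs (hv a) (hv b))
    (fun a => by simpa [hA, Fintype.sum_sum_type] using (sum_qCoef_sq hs (hv a)).le)
  let em := MeasurableEquiv.sumPiEquivProdPi (fun _ : Edge n ⊕ Fin n => ℝ)
  have he : MeasurePreserving em (stdGauss (Edge n ⊕ Fin n))
      ((gauss (Edge n)).prod (stdGauss (Fin n))) :=
    measurePreserving_sumPiEquivProdPi (fun _ : Edge n ⊕ Fin n => gaussianReal 0 1)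
  set W : Arr n → ℝ := fun G => softMax T (fun x => qCoef s (v x)) G with hW
  have hAW : ∀ z, softMax T A z = W (em z).1 := fun z => by
    simp [hW, softMax, Vale.Agent.P150.expSum, hA, em, Fintype.sum_sum_type,
      MeasurableEquiv.sumPiEquivProdPi, Equiv.sumPiEquivProdPi]
  have hL : ∫ z, Real.exp (l * softMax T A z) ∂stdGauss (Edge n ⊕ Fin n)
      = ∫ G, Real.exp (l * W G) ∂gauss (Edge n) := by
    simp only [hAW]
    rw [he.integral_comp' (fun q => Real.exp (l * W q.1)),
      integral_fun_fst (f := fun G => Real.exp (l * W G))]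
    simp
  rw [hL] at hcmp
  -- the linear side
  set b := l / n with hb
  have hbe : b = η / 5 := by rw [hb, hl]; field_simp
  have hb2 : b < 1 / 2 := by rw [hbe]; linarith
  have hBle : ∀ z, Real.exp (l * softMax T B z)
      ≤ Real.exp (l + 1) * ∏ i, Real.exp (b * (em z).2 i ^ 2) := fun z => by
    rw [← Real.exp_sum, ← Real.exp_add, Real.exp_le_exp]
    have hle := softMax_le hT B z (M := 1 + (∑ i, (em z).2 i ^ 2) / n) fun x => by
      have e : ∀ i, (v x i - (em z).2 i / sn) ^ 2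
          = v x i ^ 2 + (em z).2 i ^ 2 / n - 2 / sn * v x i * (em z).2 i := fun i => by
        rw [sub_sq, div_pow, ← hsn2, pow_two sn]; ring
      have h0 := sum_nonneg (fun i (_ : i ∈ univ) => sq_nonneg (v x i - (em z).2 i / sn))
      simp only [e, sum_sub_distrib, sum_add_distrib, hv, ← sum_div] at h0
      have e3 : ∀ i, (em z).2 i = z (Sum.inr i) := fun i => rfl
      simp only [e3] at h0 ⊢
      simp only [hB, Fintype.sum_sum_type, Sum.elim_inl, Sum.elim_inr, Pi.zero_apply, zero_mul,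
        sum_const_zero, zero_add]
      linarith
    have h2 : l * (Real.log (Fintype.card X) / T) ≤ 1 := by
      rw [hTdef, mul_div, div_le_one hT]
      nlinarith
    have h3 : l * ((∑ i, (em z).2 i ^ 2) / n) = ∑ i, b * (em z).2 i ^ 2 := by
      rw [← mul_sum, hb]
      ring
    have := mul_le_mul_of_nonneg_left hle hl0.le
    rw [mul_add, mul_add, mul_one, h3] at this
    linarith
  have hint : Integrable (fun h : Fin n → ℝ => Real.exp (l + 1) * ∏ i, Real.exp (b * h i ^ 2))
      (stdGauss (Fin n)) :=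
    (Integrable.fintype_prod fun _ => integrable_exp_sq hb2).const_mul _
  have hR : ∫ z, Real.exp (l * softMax T B z) ∂stdGauss (Edge n ⊕ Fin n)
      ≤ Real.exp (l + 1) * (1 / Real.sqrt (1 - 2 * b)) ^ n := by
    have hi : Integrable (fun z => Real.exp (l + 1) * ∏ i, Real.exp (b * (em z).2 i ^ 2))
        (stdGauss (Edge n ⊕ Fin n)) :=
      (he.integrable_comp_emb em.measurableEmbedding).2 (hint.comp_snd (gauss (Edge n)))
    refine (integral_mono_of_nonneg (ae_of_all _ fun z => (Real.exp_pos _).le) hi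
      (ae_of_all _ hBle)).trans (le_of_eq ?_)
    rw [he.integral_comp' (fun q => Real.exp (l + 1) * ∏ i, Real.exp (b * q.2 i ^ 2)),
      integral_fun_snd (f := fun h : Fin n → ℝ => Real.exp (l + 1) * ∏ i, Real.exp (b * h i ^ 2)),
      integral_const_mul]
    simp only [probReal_univ, smul_eq_mul, one_mul, stdGauss]
    rw [integral_fintype_prod_eq_pow (fun x => Real.exp (b * x ^ 2)), integral_exp_sq hb2,
      Fintype.card_fin]
  have hpow : (1 / Real.sqrt (1 - 2 * b)) ^ n ≤ Real.exp (l + 4 * l ^ 2 / n) := by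
    have hbq : b ≤ 1 / 4 := by rw [hbe]; linarith
    have hb0 : 0 ≤ b := by positivity
    have hx : 0 < 1 - 2 * b := by linarith
    have h1 : 1 / Real.sqrt (1 - 2 * b) ≤ Real.exp (b + 4 * b ^ 2) := by
      rw [one_div, ← Real.sqrt_inv, Real.sqrt_le_iff]
      refine ⟨(Real.exp_pos _).le, ?_⟩
      rw [← Real.exp_nat_mul, inv_le_iff_one_le_mul₀ hx]
      have := Real.add_one_le_exp (((2 : ℕ) : ℝ) * (b + 4 * b ^ 2))
      push_cast at this ⊢
      have := mul_le_mul_of_nonneg_right this hx.le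
      nlinarith
    refine (pow_le_pow_left₀ (by positivity) h1 n).trans_eq ?_
    rw [← Real.exp_nat_mul, hb]
    congr 1
    field_simp
  have hpos : ∀ G, 0 ≤ Real.exp (l * W G) := fun G => (Real.exp_pos _).le
  have hE : ∫ G, Real.exp (l * W G) ∂gauss (Edge n)
      ≤ Real.exp (2 * l + 1 + 5 * l ^ 2 / n) := by
    refine hcmp.trans ((mul_le_mul_of_nonneg_left (hR.trans (mul_le_mul_of_nonneg_left hpow
      (Real.exp_pos _).le)) (Real.exp_pos _).le).trans_eq ?_)
    rw [← Real.exp_add, ← Real.exp_add]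
    congr 1
    ring
  have hintW : Integrable (fun G => Real.exp (l * W G)) (gauss (Edge n)) := by
    refine integrable_of_exp_bound ?_ (Real.exp (l * (Real.log (Fintype.card X) / T)))
      (fun e => l * ∑ x, |qCoef s (v x) e|) fun G => ?_
    · simp only [hW, softMax, Vale.Agent.P150.expSum]
      refine Real.continuous_exp.comp (Continuous.const_mul (Continuous.div_const
        (Continuous.log (by fun_prop) fun G => ?_) T) l)
      exact (sum_pos (fun _ _ => Real.exp_pos _) univ_nonempty).ne'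
    · rw [abs_of_pos (Real.exp_pos _), ← Real.exp_add, Real.exp_le_exp]
      have h := mul_le_mul_of_nonneg_left (softMax_le hT (fun x => qCoef s (v x)) G
        (M := ∑ e, (∑ x, |qCoef s (v x) e|) * |G e|) fun x => (le_abs_self _).trans
          ((abs_sum_le_sum_abs _ _).trans (sum_le_sum fun e _ => by
            rw [abs_mul]
            exact mul_le_mul_of_nonneg_right (single_le_sum (f := fun x => |qCoef s (v x) e|)
              (fun _ _ => abs_nonneg _) (mem_univ x)) (abs_nonneg _)))) hl0.le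
      refine h.trans_eq ?_
      rw [mul_add, mul_sum, add_comm]
      simp only [mul_assoc]
  set δ := Real.exp (l * (2 * (1 + η))) with hδ
  have hmk := mul_meas_ge_le_integral_of_nonneg (ae_of_all _ hpos) hintW δ
  refine (measureReal_mono (s₂ := {G | δ ≤ Real.exp (l * W G)}) ?_ (measure_ne_top _ _)).trans ?_
  · rintro G ⟨x, hx⟩
    exact Real.exp_le_exp.2 (mul_le_mul_of_nonneg_left
      (hx.le.trans (le_softMax hT (fun x => qCoef s (v x)) G x)) hl0.le)
  · rw [mul_comm] at hmk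
    refine ((le_div_iff₀ (Real.exp_pos _)).2 (hmk.trans hE)).trans_eq ?_
    rw [← Real.exp_sub]
    congr 1
    rw [hl]
    field_simp
    ring

/-- One side, on the whole sphere. -/
lemma gauss_qForm_le (hn : 0 < n) {s : ℝ} (hs : s ^ 2 = 1) {η : ℝ} (hη : 0 < η) (hη1 : η ≤ 1) :
    (gauss (Edge n)).real {G | ∃ x : Fin n → ℝ, ∑ i, x i ^ 2 = 1 ∧ 2 * (1 + η) < qForm s G x}
      ≤ Real.exp (1 - η ^ 2 * n / 5) := by
  set S := {x : Fin n → ℝ | ∑ i, x i ^ 2 = 1}
  have : Nonempty S :=
    ⟨⟨Pi.single ⟨0, by omega⟩ 1, by simp [S, Pi.single_apply, ite_pow]⟩⟩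
  set u := TopologicalSpace.denseSeq S
  set E : ℕ → Set (Arr n) := fun N => {G | ∃ k : Fin (N + 1), 2 * (1 + η) < qForm s G (u k).1}
  have hc : ∀ G : Arr n, Continuous (qForm s G) := fun G => by unfold qForm qCoef; fun_prop
  have hsub : {G | ∃ x : Fin n → ℝ, ∑ i, x i ^ 2 = 1 ∧ 2 * (1 + η) < qForm s G x} ⊆ ⋃ N, E N := by
    rintro G ⟨x, hx, hgt⟩
    obtain ⟨k, hy⟩ := (TopologicalSpace.denseRange_denseSeq S).exists_mem_open
      (isOpen_lt continuous_const ((hc G).comp continuous_subtype_val)) ⟨⟨x, hx⟩, hgt⟩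
    exact Set.mem_iUnion.2 ⟨k, ⟨k, Nat.lt_succ_self k⟩, hy⟩
  have hmono : Monotone E := fun N M h G ⟨k, hk⟩ =>
    ⟨⟨k.1, k.2.trans_le (Nat.succ_le_succ h)⟩, hk⟩
  refine ENNReal.toReal_le_of_le_ofReal (Real.exp_pos _).le ((measure_mono hsub).trans ?_)
  rw [hmono.measure_iUnion]
  refine iSup_le fun N => ?_
  rw [← ofReal_measureReal (μ := gauss (Edge n)) (s := E N)]
  exact ENNReal.ofReal_le_ofReal
    (gauss_finite_qForm_le hn hs (fun k : Fin (N + 1) => (u k).1) (fun k => (u k).2) hη hη1)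

lemma gauss_compl_normSet_le (hn : 0 < n) (K : ℕ) :
    (gauss (Edge n)).real (normSet n K)ᶜ ≤ 2 * Real.exp (1 - eta K ^ 2 * n / 5) := by
  have hη : 0 < eta K := by rw [eta]; positivity
  have hη1 : eta K ≤ 1 := by
    rw [eta, div_le_one (by positivity)]
    have : (1 : ℝ) ≤ ((K : ℝ) + 1) ^ 10 := one_le_pow₀ (le_add_of_nonneg_left (Nat.cast_nonneg K))
    linarith
  set B : ℝ → Set (Arr n) := fun s =>
    {G | ∃ x : Fin n → ℝ, ∑ i, x i ^ 2 = 1 ∧ 2 * (1 + eta K) < qForm s G x}
  have hsub : (normSet n K)ᶜ ⊆ B 1 ∪ B (-1) := by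
    intro G hG
    simp only [normSet, Set.mem_compl_iff, Set.mem_ofPred_eq, not_forall, not_le] at hG
    obtain ⟨x, hx⟩ := hG
    have hr : 0 < ∑ i, x i ^ 2 := (sum_nonneg fun i _ => sq_nonneg _).lt_of_ne fun h => by
      have : ∀ i, x i = 0 := fun i => by
        simpa using (sum_eq_zero_iff_of_nonneg fun i _ => sq_nonneg (x i)).1 h.symm i (mem_univ i)
      simp [this] at hx
    set c := (Real.sqrt (∑ i, x i ^ 2))⁻¹ with hc
    have hc2 : c ^ 2 * ∑ i, x i ^ 2 = 1 := by
      rw [hc, inv_pow, Real.sq_sqrt hr.le, inv_mul_cancel₀ hr.ne']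
    have hu : ∑ i, (c * x i) ^ 2 = 1 := by simpa [mul_pow, ← mul_sum] using hc2
    have h1 : 0 < 1 + eta K := by rw [eta]; positivity
    have hq : 2 * (1 + eta K) < |qForm 1 G fun i => c * x i| := by
      rw [qForm_smul, ← jMat_quad K G x, abs_mul, abs_mul, abs_of_nonneg (sq_nonneg c),
        abs_of_pos h1]
      calc 2 * (1 + eta K) = c ^ 2 * (2 * (∑ i, x i ^ 2) * (1 + eta K)) := by
            linear_combination (-2 * (1 + eta K)) * hc2
        _ < _ := mul_lt_mul_of_pos_left (mul_lt_mul_of_pos_right hx h1) (by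
            rw [hc]; positivity)
    rcases lt_abs.1 hq with h | h
    · exact Or.inl ⟨_, hu, h⟩
    · exact Or.inr ⟨_, hu, by rwa [qForm_neg]⟩
  refine (measureReal_mono hsub (measure_ne_top _ _)).trans ((measureReal_union_le _ _).trans ?_)
  linarith [gauss_qForm_le hn (s := 1) (one_pow 2) hη hη1,
    gauss_qForm_le hn (s := -1) (by norm_num) hη hη1]

/-- The norm event has exponentially small complement. -/
theorem norm_good : ∃ C : ℝ, 1 ≤ C ∧ ∀ n K : ℕ, 1 ≤ K → (C * ((K : ℝ) + 1)) ^ 80 ≤ (n : ℝ) →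
    ∃ s : Set (Arr n), MeasurableSet s ∧
      (∀ G ∈ s, ∀ x : Fin n → ℝ, |∑ i, ∑ j, x i * jMat K G i j * x j| ≤ 2 * ∑ i, x i ^ 2) ∧
      (gauss (Edge n)).real sᶜ ≤ Real.exp (-((n : ℝ) / (C * ((K : ℝ) + 1)) ^ 20)) := by
  refine ⟨3, by norm_num, fun n K _ h => ⟨normSet n K, measurableSet_normSet n K,
    fun G hG => hG, ?_⟩⟩
  set m : ℝ := (K : ℝ) + 1 with hm
  have hm1 : 1 ≤ m := le_add_of_nonneg_left (Nat.cast_nonneg K)
  have hn0 : (0 : ℝ) < n := lt_of_lt_of_le (by positivity) h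
  refine (gauss_compl_normSet_le (Nat.cast_pos.1 hn0) K).trans ?_
  rw [eta, ← hm]
  set X := (n : ℝ) / m ^ 20 with hX
  have hX0 : (3 : ℝ) ^ 80 ≤ X := by
    rw [hX, le_div_iff₀ (by positivity)]
    refine le_trans ?_ h
    rw [mul_pow]
    exact mul_le_mul_of_nonneg_left (pow_le_pow_right₀ hm1 (by norm_num)) (by positivity)
  have e1 : (1 / (100 * m ^ 10)) ^ 2 * (n : ℝ) / 5 = X / 50000 := by
    rw [hX]; field_simp; ring
  have e2 : (n : ℝ) / (3 * m) ^ 20 = X / 3 ^ 20 := by
    rw [hX, mul_pow]; field_simp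
  rw [e1, e2]
  calc 2 * Real.exp (1 - X / 50000) ≤ Real.exp 1 * Real.exp (1 - X / 50000) := by
        gcongr
        linarith [Real.add_one_le_exp (1 : ℝ)]
    _ ≤ _ := by
        rw [← Real.exp_add, Real.exp_le_exp]
        norm_num at hX0 ⊢
        linarith

end Vale.Agent.P146.Power
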