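import Vale.Agent.P146.Power.Good.Cheb
import Vale.Agent.P146.Power.Good.Norm

/-!
The good event is likely: the norm bound, concentration of the traces by high moments, and the
recursion for the mean traces.
-/

namespace Vale.Agent.P146.Power.Traces

open MeasureTheory ProbabilityTheory Finset Matrix
open Vale.Agent.P157 (gauss)
open Vale.Agent.P157.Parisi (Tame GradOf tame_const tame_coord tame_sum)
open Vale.Agent.P146.Power.Moments (tame_pow central_moment_le integral_le_split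
  integral_one_add_sq_pow_le)

/-- A large dimension: what is used of the size condition and of the norm bound. -/
structure Setting (n K : ℕ) where
  s : Set (Arr n)
  meas : MeasurableSet s
  norm : ∀ G ∈ s, ∀ x : Fin n → ℝ, |∑ i, ∑ j, x i * jMat K G i j * x j| ≤ 2 * ∑ i, x i ^ 2
  hK : 1 ≤ K
  big : (2 * ((K : ℝ) + 1)) ^ 40 ≤ n
  tail : ∀ M : ℕ, M ≤ 10000 * (K + 1) ^ 3 → (gauss (Edge n)).real sᶜ ≤ ((n : ℝ) ^ M)⁻¹

variable {n K : ℕ}

lemma Setting.one_le (S : Setting n K) : (1 : ℝ) ≤ n :=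
  le_trans (one_le_pow₀ (by linarith [(Nat.cast_nonneg K : (0:ℝ) ≤ K)])) S.big

lemma Setting.pos (S : Setting n K) : 0 < n := by exact_mod_cast S.one_le

lemma Setting.card_big (S : Setting n K) {c : ℝ} (p : ℕ) (hp : p ≤ 40) (hc : c ≤ 2 ^ 40) :
    c * ((K : ℝ) + 1) ^ p ≤ n := by
  refine le_trans ?_ S.big
  rw [mul_pow]
  exact mul_le_mul hc (pow_le_pow_right₀ (by linarith [(Nat.cast_nonneg K : (0:ℝ) ≤ K)]) hp)
    (by positivity) (by positivity)

/-- A moment of a statistic bounded on the good event and polynomially everywhere. -/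
lemma moment_split (S : Setting n K) {h : Arr n → ℝ} (hh : Tame h) (h0 : ∀ G, 0 ≤ h G) {a : ℝ}
    (ha : 0 ≤ a) (hgood : ∀ G ∈ S.s, h G ≤ a)
    (hcrude : ∀ G, h G ≤ 8 * (K : ℝ) ^ 2 * (4 * (1 + ∑ e, G e ^ 2)) ^ (4 * K)) {j : ℕ}
    (hj : 0 < j) (hjK : j ≤ 103 * (K + 1)) :
    ∫ G, h G ^ j ∂gauss (Edge n) ≤ a ^ j + (((n : ℝ) ^ 2)⁻¹) ^ j := by
  have hn := S.one_le
  have hn0 : (0 : ℝ) < n := by linarith
  have hK := S.hK
  obtain ⟨N, hN⟩ : ∃ N, N = 8 * K * j := ⟨_, rfl⟩
  have hN0 : 0 < N := by rw [hN]; positivity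
  have h8 : 8 * (K : ℝ) ^ 2 ≤ n :=
    (mul_le_mul_of_nonneg_left (pow_le_pow_left₀ (by positivity) (by linarith) 2) (by norm_num)).trans
      (S.card_big 2 (by norm_num) (by norm_num) : 8 * ((K : ℝ) + 1) ^ 2 ≤ n)
  have h16 : 16 * (N : ℝ) ≤ n := by
    have hN1 : (16 * N : ℕ) ≤ 13184 * (K + 1) ^ 2 := by
      rw [hN]; nlinarith [Nat.mul_le_mul (Nat.le_succ K) hjK]
    have : (16 : ℝ) * N ≤ 13184 * ((K : ℝ) + 1) ^ 2 := by exact_mod_cast hN1
    exact this.trans (S.card_big 2 (by norm_num) (by norm_num))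
  have hsq : ∫ G, (h G ^ j) ^ 2 ∂gauss (Edge n) ≤ 2 * (n : ℝ) ^ (2 * j + 3 * N) := by
    have hpt : ∀ G : Arr n, (h G ^ j) ^ 2 ≤
        ((n : ℝ) ^ (2 * j) * 4 ^ N) * (1 + ∑ e, G e ^ 2) ^ N := by
      intro G
      calc (h G ^ j) ^ 2 = h G ^ (2 * j) := by ring
        _ ≤ ((n : ℝ) * (4 * (1 + ∑ e, G e ^ 2)) ^ (4 * K)) ^ (2 * j) :=
            pow_le_pow_left₀ (h0 G)
              ((hcrude G).trans (mul_le_mul_of_nonneg_right h8 (by positivity))) _
        _ = _ := by
            rw [mul_pow, ← pow_mul, show 4 * K * (2 * j) = N by rw [hN]; ring, mul_pow, mul_assoc]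
    have hr : Tame fun G : Arr n => (1 + ∑ e, G e ^ 2) ^ N :=
      tame_pow ((tame_const 1).add (tame_sum univ fun e _ => tame_pow (tame_coord e) 2)) _
    refine (integral_mono (tame_pow (tame_pow hh j) 2).integrable
      (hr.const_mul _).integrable hpt).trans ?_
    rw [integral_const_mul]
    have hI := integral_one_add_sq_pow_le (ι := Edge n) N (m := n * n) (by simp) hN0
      (Nat.mul_pos S.pos S.pos)
    push_cast at hI
    calc (n : ℝ) ^ (2 * j) * 4 ^ N * ∫ G, (1 + ∑ e, G e ^ 2) ^ N ∂gauss (Edge n)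
        ≤ (n : ℝ) ^ (2 * j) * 4 ^ N * (2 * (4 * N * ((n : ℝ) * n)) ^ N) := by gcongr
      _ = 2 * (n : ℝ) ^ (2 * j) * (16 * N * ((n : ℝ) * n)) ^ N := by
          rw [show (16 : ℝ) * N * ((n : ℝ) * n) = 4 * (4 * N * ((n : ℝ) * n)) by ring,
            mul_pow (4 : ℝ) (4 * N * ((n : ℝ) * n))]
          ring
      _ ≤ 2 * (n : ℝ) ^ (2 * j) * ((n : ℝ) * ((n : ℝ) * n)) ^ N := by gcongr
      _ = _ := by rw [pow_add, pow_mul (n : ℝ) 3]; ring
  set p := 2 * j + 3 * N + 2 * j + 2 with hp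
  have hpM : p + (2 * j + 2) ≤ 10000 * (K + 1) ^ 3 := by
    have e : p + (2 * j + 2) = (24 * K + 6) * j + 4 := by rw [hp, hN]; ring
    calc p + (2 * j + 2) ≤ (24 * K + 10) * j := by rw [e, add_mul, add_mul]; omega
      _ ≤ (34 * (K + 1)) * (103 * (K + 1)) := Nat.mul_le_mul (by omega) hjK
      _ = 3502 * (K + 1) ^ 2 := by ring
      _ ≤ _ := Nat.mul_le_mul (by norm_num) (Nat.pow_le_pow_right (by omega) (by norm_num))
  have hT := S.tail (p + (2 * j + 2)) hpM
  have hs := integral_le_split (tame_pow hh j) S.meas (a := a ^ j) (δ := ((n : ℝ) ^ p)⁻¹)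
    (pow_nonneg ha j) (fun G hG => pow_le_pow_left₀ (h0 G) (hgood G hG) j) (by positivity)
  refine hs.trans ?_
  rw [inv_pow, ← pow_mul, add_assoc]
  refine add_le_add le_rfl ?_
  have t1 : ((n : ℝ) ^ p)⁻¹ * ∫ G, (h G ^ j) ^ 2 ∂gauss (Edge n) ≤
      2 * ((n : ℝ) ^ (2 * j + 2))⁻¹ := by
    refine (mul_le_mul_of_nonneg_left hsq (by positivity)).trans_eq ?_
    rw [hp, show 2 * j + 3 * N + 2 * j + 2 = (2 * j + 3 * N) + (2 * j + 2) by ring, pow_add]
    field_simp
  have t2 : (gauss (Edge n)).real S.sᶜ / ((n : ℝ) ^ p)⁻¹ ≤ ((n : ℝ) ^ (2 * j + 2))⁻¹ := by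
    rw [div_inv_eq_mul]
    refine (mul_le_mul_of_nonneg_right hT (by positivity)).trans_eq ?_
    rw [pow_add]
    field_simp
  have t3 : 3 * ((n : ℝ) ^ (2 * j + 2))⁻¹ ≤ ((n : ℝ) ^ (2 * j))⁻¹ := by
    have h3 : (3 : ℝ) ≤ (n : ℝ) ^ 2 :=
      le_trans (by simpa using S.card_big (c := 3) 0 (by norm_num) (by norm_num))
        (le_self_pow₀ hn (by norm_num))
    rw [pow_add, mul_inv, ← mul_assoc, mul_comm (3 : ℝ), mul_assoc]
    exact mul_le_of_le_one_right (by positivity) (by rw [← div_eq_mul_inv, div_le_one (by positivity)]; exact h3)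
  linarith

/-- The even central moments of a trace. -/
lemma tau_moment_le (S : Setting n K) {m : ℕ} (hm : m ≤ 2 * K) {j : ℕ} (hj : 0 < j)
    (hjK : j ≤ 103 * (K + 1)) :
    ∫ G, (tau K m G - ∫ G', tau K m G' ∂gauss (Edge n)) ^ (2 * j) ∂gauss (Edge n) ≤
      (2000 * (j : ℝ) * (K : ℝ) ^ 6 / (n : ℝ) ^ 2) ^ j := by
  have hn := S.one_le
  have hK : (1 : ℝ) ≤ K := by exact_mod_cast S.hK
  have hm' : (m : ℝ) ≤ 2 * K := by exact_mod_cast hm
  have hg : ∀ G ∈ S.s, ∑ e, grad K m e G ^ 2 ≤ 128 * (K : ℝ) ^ 6 / (n : ℝ) ^ 2 := by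
    intro G hG
    obtain ⟨E⟩ := exists_eig (jMat_isHermitian K G)
    refine (gsq_le S.pos K m G E (B := (8 * (K : ℝ) ^ 3) ^ 2) fun i => ?_).trans_eq (by ring)
    rw [← sq_abs]
    refine pow_le_pow_left₀ (abs_nonneg _) ((abs_pEig_le (E.abs_lam_le (S.norm G hG) i) m).trans ?_) 2
    exact (pow_le_pow_left₀ (Nat.cast_nonneg m) hm' 3).trans_eq (by ring)
  have hc : ∀ G : Arr n, ∑ e, grad K m e G ^ 2 ≤
      8 * (K : ℝ) ^ 2 * (4 * (1 + ∑ e, G e ^ 2)) ^ (4 * K) := by
    intro G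
    obtain ⟨E⟩ := exists_eig (jMat_isHermitian K G)
    set Z : ℝ := 4 * (1 + ∑ e, G e ^ 2) with hZ
    have hZ1 : 1 ≤ Z := by
      rw [hZ]; linarith [sum_nonneg fun e (_ : e ∈ univ) => sq_nonneg (G e)]
    refine (gsq_le S.pos K m G E (B := 4 * (K : ℝ) ^ 2 * Z ^ (4 * K)) fun i => ?_).trans ?_
    · rw [← sq_abs]
      refine (pow_le_pow_left₀ (abs_nonneg _) ((abs_pEig_le_pow _ m).trans
        (mul_le_mul hm' (pow_le_pow_left₀ (by positivity) (one_add_abs_lam_le S.pos K G E i) m)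
          (by positivity) (by positivity))) 2).trans ?_
      rw [mul_pow, ← pow_mul, mul_pow]
      norm_num
      exact mul_le_mul_of_nonneg_left (pow_le_pow_right₀ hZ1 (by omega)) (by positivity)
    · rw [div_le_iff₀ (by positivity)]
      calc 2 * (4 * (K : ℝ) ^ 2 * Z ^ (4 * K))
          = 8 * (K : ℝ) ^ 2 * Z ^ (4 * K) * 1 := by ring
        _ ≤ _ := mul_le_mul_of_nonneg_left (one_le_pow₀ hn) (by positivity)
  refine (central_moment_le (tame_tau K m) (tame_grad K m) (gradOf_tau K m) hj).trans ?_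
  refine (mul_le_mul_of_nonneg_left (moment_split S (tame_sum univ fun e _ => (tame_grad K m e).sq)
    (fun G => sum_nonneg fun e _ => sq_nonneg _) (by positivity) hg hc hj hjK)
    (by positivity)).trans ?_
  have h1 : (128 * (K : ℝ) ^ 6 / (n : ℝ) ^ 2) ^ j + (((n : ℝ) ^ 2)⁻¹) ^ j ≤
      (129 * (K : ℝ) ^ 6 / (n : ℝ) ^ 2) ^ j := by
    refine (pow_add_pow_le (by positivity) (by positivity) hj.ne').trans ?_
    refine pow_le_pow_left₀ (by positivity) ?_ j
    rw [inv_eq_one_div, ← add_div]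
    gcongr
    linarith [one_le_pow₀ hK (n := 6)]
  refine (mul_le_mul_of_nonneg_left h1 (by positivity)).trans ?_
  rw [← mul_pow]
  refine pow_le_pow_left₀ (by positivity) ?_ j
  rw [← mul_div_assoc]
  gcongr ?_ / _
  linarith [mul_nonneg (Nat.cast_nonneg j : (0:ℝ) ≤ j) (pow_nonneg (Nat.cast_nonneg K : (0:ℝ) ≤ K) 6)]

lemma tau_var_le (S : Setting n K) {m : ℕ} (hm : m ≤ 2 * K) :
    ∫ G, (tau K m G - ∫ G', tau K m G' ∂gauss (Edge n)) ^ 2 ∂gauss (Edge n) ≤
      2000 * (K : ℝ) ^ 6 / (n : ℝ) ^ 2 := by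
  simpa using tau_moment_le S hm one_pos (by omega)

/-- The trace of a product of two polynomials is bounded on average. -/
lemma entries_mean_le (S : Setting n K) {c d : ℕ} (hcd : c + d ≤ 2 * K) :
    |∫ G, ∑ a, ∑ b, uMat (jMat K G) c a b * uMat (jMat K G) d a b ∂gauss (Edge n)| ≤
      10 * (K : ℝ) ^ 2 * n := by
  have hn := S.one_le
  have hn0 : (n : ℝ) ≠ 0 := by positivity
  have hK : (1 : ℝ) ≤ K := by exact_mod_cast S.hK
  let q : Arr n → ℝ := fun G => ∑ a, ∑ b, uMat (jMat K G) c a b * uMat (jMat K G) d a b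
  have hq : Tame q := tame_sum univ fun a _ => tame_sum univ fun b _ =>
    (tame_uMat K c a b).mul (tame_uMat K d a b)
  let h : Arr n → ℝ := fun G => (n : ℝ)⁻¹ * |q G|
  have hh : Tame h := hq.abs.const_mul _
  have hb : ∀ G {B : ℝ}, (∀ E : Eig (jMat K G), ∀ i,
      |cheb c (E.lam i) * cheb d (E.lam i)| ≤ B) → h G ≤ B := by
    intro G B hB
    obtain ⟨E⟩ := exists_eig (jMat_isHermitian K G)
    show (n : ℝ)⁻¹ * |q G| ≤ B
    rw [inv_mul_le_iff₀ (by positivity)]
    exact entries_le K c d G E (hB E)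
  have hgood : ∀ G ∈ S.s, h G ≤ 9 * (K : ℝ) ^ 2 := fun G hG => hb G fun E i => by
    have hx := E.abs_lam_le (S.norm G hG) i
    have hc : (c : ℝ) ≤ 2 * K := by exact_mod_cast (show c ≤ 2 * K by omega)
    have hd : (d : ℝ) ≤ 2 * K := by exact_mod_cast (show d ≤ 2 * K by omega)
    rw [abs_mul, show 9 * (K : ℝ) ^ 2 = (3 * K) * (3 * K) by ring]
    exact mul_le_mul ((abs_cheb_le hx c).trans (by linarith))
      ((abs_cheb_le hx d).trans (by linarith)) (abs_nonneg _) (by positivity)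
  have hcr : ∀ G : Arr n, h G ≤ 8 * (K : ℝ) ^ 2 * (4 * (1 + ∑ e, G e ^ 2)) ^ (4 * K) :=
    fun G => hb G fun E i => by
      set Z : ℝ := 4 * (1 + ∑ e, G e ^ 2) with hZ
      have hx := one_add_abs_lam_le S.pos K G E i
      have hZ1 : 1 ≤ Z := le_trans (le_add_of_nonneg_right (abs_nonneg _)) hx
      rw [abs_mul]
      refine (mul_le_mul (abs_cheb_le_pow _ c) (abs_cheb_le_pow _ d) (abs_nonneg _)
        (by positivity)).trans ?_
      rw [← pow_add]
      refine ((pow_le_pow_left₀ (by positivity) hx _).trans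
        (pow_le_pow_right₀ hZ1 (show c + d ≤ 4 * K by omega))).trans ?_
      exact le_mul_of_one_le_left (by positivity) (by nlinarith)
  have hm := moment_split S hh (fun G => by positivity) (by positivity) hgood hcr one_pos (by omega)
  simp only [pow_one] at hm
  calc |∫ G, q G ∂gauss (Edge n)| ≤ ∫ G, |q G| ∂gauss (Edge n) := abs_integral_le_integral_abs
    _ = n * ∫ G, h G ∂gauss (Edge n) := by
        rw [← integral_const_mul]
        refine integral_congr_ae (.of_forall fun G => ?_)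
        show |q G| = (n : ℝ) * ((n : ℝ)⁻¹ * |q G|)
        field_simp
    _ ≤ n * (10 * (K : ℝ) ^ 2) := by
        refine mul_le_mul_of_nonneg_left (hm.trans ?_) (by positivity)
        have : ((n : ℝ) ^ 2)⁻¹ ≤ 1 := inv_le_one_of_one_le₀ (one_le_pow₀ hn)
        nlinarith
    _ = _ := by ring

/-- The covariance of two traces. -/
lemma cov_le (S : Setting n K) {c d : ℕ} (hc : c ≤ 2 * K) (hd : d ≤ 2 * K) :
    |(∫ G, tau K c G * tau K d G ∂gauss (Edge n)) -
      (∫ G, tau K c G ∂gauss (Edge n)) * ∫ G, tau K d G ∂gauss (Edge n)| ≤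
      2000 * (K : ℝ) ^ 6 / (n : ℝ) ^ 2 := by
  set μ := gauss (Edge n)
  set ec := ∫ G, tau K c G ∂μ with hec
  set ed := ∫ G, tau K d G ∂μ with hed
  have tc : Tame fun G : Arr n => tau K c G - ec := (tame_tau K c).sub (tame_const _)
  have td : Tame fun G : Arr n => tau K d G - ed := (tame_tau K d).sub (tame_const _)
  have e : (∫ G, tau K c G * tau K d G ∂μ) - ec * ed =
      ∫ G, (tau K c G - ec) * (tau K d G - ed) ∂μ := by
    have e1 : ∀ G : Arr n, (tau K c G - ec) * (tau K d G - ed) =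
        tau K c G * tau K d G - (ed * tau K c G + ec * tau K d G - ec * ed) := fun G => by ring
    simp only [e1]
    have i1 := (tame_tau (n := n) K c).const_mul ed
    have i2 := (tame_tau (n := n) K d).const_mul ec
    rw [integral_sub ((tame_tau K c).mul (tame_tau K d)).integrable
        ((i1.add i2).sub (tame_const _)).integrable,
      integral_sub (i1.add i2).integrable (integrable_const _),
      integral_add i1.integrable i2.integrable, integral_const_mul, integral_const_mul,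
      ← hec, ← hed]
    simp
    ring
  rw [e]
  refine abs_integral_le_integral_abs.trans ?_
  calc ∫ G, |(tau K c G - ec) * (tau K d G - ed)| ∂μ
      ≤ ∫ G, ((tau K c G - ec) ^ 2 + (tau K d G - ed) ^ 2) * (1 / 2) ∂μ := by
        refine integral_mono (tc.mul td).abs.integrable
          (((tc.sq.add td.sq).integrable).mul_const _) fun G => ?_
        have := two_mul_le_add_sq |tau K c G - ec| |tau K d G - ed|
        rw [sq_abs, sq_abs] at this
        simp only [abs_mul]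
        linarith
    _ ≤ _ := by
        rw [integral_mul_const, integral_add tc.sq.integrable td.sq.integrable]
        linarith [tau_var_le S hc, tau_var_le S hd]

/-- The error in the recursion of the means. -/
noncomputable def kap (K : ℕ) : ℝ := ((1 + eta K) ^ 2)⁻¹

lemma kap_pos (K : ℕ) : 0 < kap K := by have := eta_pos K; unfold kap; positivity

lemma kap_le_one (K : ℕ) : kap K ≤ 1 :=
  inv_le_one_of_one_le₀ (one_le_pow₀ (by linarith [eta_pos K]))

lemma one_sub_kap_le (K : ℕ) : 1 - kap K ≤ 2 * eta K := by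
  have h := eta_pos K
  have e : 1 - kap K = (2 * eta K + eta K ^ 2) * kap K := by unfold kap; field_simp; ring
  have h2 : (2 * eta K + eta K ^ 2) ≤ 2 * eta K * (1 + eta K) ^ 2 := by nlinarith [pow_pos h 2, pow_pos h 3]
  refine (e.trans_le (mul_le_mul_of_nonneg_right h2 (kap_pos K).le)).trans_eq ?_
  unfold kap; field_simp

/-- The mean traces nearly satisfy the recursion of the semicircle law. -/
lemma mean_rec (S : Setting n K) {m : ℕ} (hm : m + 2 ≤ 2 * K) :
    |(∫ G, tau K (m + 2) G ∂gauss (Edge n)) -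
      kap K * (∑ c ∈ range (m + 1),
        (∫ G, tau K c G ∂gauss (Edge n)) * ∫ G, tau K (m - c) G ∂gauss (Edge n)) +
      ∫ G, tau K m G ∂gauss (Edge n)| ≤ eta K := by
  have hn := S.one_le
  have hn0 : (n : ℝ) ≠ 0 := by positivity
  have hK : (1 : ℝ) ≤ K := by exact_mod_cast S.hK
  set μ := gauss (Edge n)
  set V : ℝ := 2000 * (K : ℝ) ^ 6 / (n : ℝ) ^ 2 + 10 * (K : ℝ) ^ 2 / n with hV
  have hk : 2 * co n K ^ 2 / n = kap K / (n : ℝ) ^ 2 := by
    rw [co_sq S.pos, kap]; field_simp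
  have e : (∫ G, tau K (m + 2) G ∂μ) -
      kap K * (∑ c ∈ range (m + 1), (∫ G, tau K c G ∂μ) * ∫ G, tau K (m - c) G ∂μ) +
      ∫ G, tau K m G ∂μ = kap K * ∑ c ∈ range (m + 1),
        (((∫ G, tau K c G * tau K (m - c) G ∂μ) -
          (∫ G, tau K c G ∂μ) * ∫ G, tau K (m - c) G ∂μ) +
          (∫ G, ∑ a, ∑ b, uMat (jMat K G) c a b * uMat (jMat K G) (m - c) a b ∂μ) / (n : ℝ) ^ 2) := by
    rw [integral_tau_add_two, hk, sum_add_distrib, sum_sub_distrib, ← sum_div, ← mul_sum]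
    field_simp
    ring
  rw [e, abs_mul, abs_of_pos (kap_pos K)]
  refine (mul_le_of_le_one_left (abs_nonneg _) (kap_le_one K)).trans ?_
  refine ((abs_sum_le_sum_abs _ _).trans (sum_le_sum fun c hc => (abs_add_le _ _).trans
    (add_le_add (cov_le S (c := c) (d := m - c) (by have := mem_range.1 hc; omega) (by omega))
      (?_ : _ ≤ 10 * (K : ℝ) ^ 2 / n)))).trans ?_
  · rw [abs_div, abs_of_pos (show (0 : ℝ) < (n : ℝ) ^ 2 by positivity), div_le_iff₀ (by positivity)]
    refine (entries_mean_le S (c := c) (d := m - c) (by have := mem_range.1 hc; omega)).trans_eq ?_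
    field_simp
  · rw [sum_const, card_range, nsmul_eq_mul, ← hV]
    have hV1 : V ≤ 2010 * ((K : ℝ) + 1) ^ 6 / n := by
      rw [hV]
      calc 2000 * (K : ℝ) ^ 6 / (n : ℝ) ^ 2 + 10 * (K : ℝ) ^ 2 / n
          ≤ 2000 * (K : ℝ) ^ 6 / n + 10 * (K : ℝ) ^ 2 / n := by
            gcongr
            exact le_self_pow₀ hn (by norm_num)
        _ ≤ _ := by
            rw [← add_div]
            gcongr
            nlinarith [pow_le_pow_left₀ (by positivity : (0:ℝ) ≤ K) (by linarith : (K:ℝ) ≤ K + 1) 6,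
              pow_le_pow_right₀ (by linarith : (1:ℝ) ≤ (K:ℝ) + 1) (by norm_num : 2 ≤ 6),
              pow_le_pow_left₀ (by positivity : (0:ℝ) ≤ K) (by linarith : (K:ℝ) ≤ K + 1) 2]
    have hm1 : ((m + 1 : ℕ) : ℝ) ≤ 2 * ((K : ℝ) + 1) := by
      exact_mod_cast (show m + 1 ≤ 2 * (K + 1) by omega)
    refine (mul_le_mul hm1 hV1 (by rw [hV]; positivity) (by positivity)).trans ?_
    rw [eta, mul_div_assoc', div_le_div_iff₀ (by positivity) (by positivity)]
    calc 2 * ((K : ℝ) + 1) * (2010 * ((K : ℝ) + 1) ^ 6) * (100 * ((K : ℝ) + 1) ^ 10)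
        = 402000 * ((K : ℝ) + 1) ^ 17 := by ring
      _ ≤ (n : ℝ) := S.card_big 17 (by norm_num) (by norm_num)
      _ = 1 * (n : ℝ) := (one_mul _).symm

/-- The mean traces are small. -/
lemma mean_le (S : Setting n K) :
    ∀ m, 1 ≤ m → m ≤ 2 * K → |∫ G, tau K m G ∂gauss (Edge n)| ≤ 6 * m * eta K := by
  have hη := eta_pos K
  intro m
  induction m using Nat.strong_induction_on with
  | h m ih =>
    intro h1 h2
    rcases m with _ | _ | _ | m
    · omega
    · rw [integral_tau_one, abs_zero]; positivity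
    · have h := mean_rec S (m := 0) (by omega)
      simp only [sum_range_one, zero_add, Nat.sub_zero, integral_tau_zero K S.pos, mul_one] at h
      have := one_sub_kap_le K
      have := kap_le_one K
      rw [abs_le] at h ⊢
      push_cast
      constructor <;> linarith
    · have h := mean_rec S (m := m + 1) (by omega)
      have he := ih (m + 1) (by omega) (by omega) (by omega)
      set e : ℕ → ℝ := fun c => ∫ G, tau K c G ∂gauss (Edge n) with hedef
      have hs : ∑ c ∈ range (m + 2), e c * e (m + 1 - c) =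
          2 * e (m + 1) + ∑ c ∈ range m, e (c + 1) * e (m - c) := by
        rw [sum_range_succ, sum_range_succ', Nat.sub_self, Nat.sub_zero,
          show e 0 = 1 from integral_tau_zero K S.pos]
        have : ∀ c, m + 1 - (c + 1) = m - c := fun c => by omega
        simp only [this]
        ring
      have hprod : |∑ c ∈ range m, e (c + 1) * e (m - c)| ≤ eta K := by
        have hb : ∀ c ∈ range m, |e (c + 1) * e (m - c)| ≤ (12 * K * eta K) ^ 2 := by
          intro c hc
          have := mem_range.1 hc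
          rw [abs_mul, sq]
          refine mul_le_mul ((ih (c + 1) (by omega) (by omega) (by omega)).trans ?_)
            ((ih (m - c) (by omega) (by omega) (by omega)).trans ?_) (abs_nonneg _) (by positivity)
          · refine mul_le_mul_of_nonneg_right ?_ hη.le
            exact_mod_cast (show 6 * (c + 1) ≤ 12 * K by omega)
          · refine mul_le_mul_of_nonneg_right ?_ hη.le
            exact_mod_cast (show 6 * (m - c) ≤ 12 * K by omega)
        refine ((abs_sum_le_sum_abs _ _).trans (sum_le_sum hb)).trans ?_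
        rw [sum_const, card_range, nsmul_eq_mul]
        have hmK : (m : ℝ) ≤ 2 * K := by exact_mod_cast (show m ≤ 2 * K by omega)
        refine (mul_le_mul_of_nonneg_right hmK (by positivity)).trans ?_
        have h3 : 288 * (K : ℝ) ^ 3 * eta K ≤ 1 := by
          have hK0 : (1 : ℝ) ≤ K := by exact_mod_cast S.hK
          rw [eta, ← mul_div_assoc, mul_one, div_le_one (by positivity)]
          calc 288 * (K : ℝ) ^ 3 ≤ 288 * ((K : ℝ) + 1) ^ 3 := by gcongr; linarith
            _ ≤ 100 * ((K : ℝ) + 1) ^ 7 * ((K : ℝ) + 1) ^ 3 := by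
                gcongr
                nlinarith [pow_le_pow_left₀ (by norm_num : (0:ℝ) ≤ 2)
                  (by linarith : (2:ℝ) ≤ (K:ℝ) + 1) 7]
            _ = _ := by ring
        calc 2 * (K : ℝ) * (12 * K * eta K) ^ 2 = 288 * (K : ℝ) ^ 3 * eta K * eta K := by ring
          _ ≤ 1 * eta K := mul_le_mul_of_nonneg_right h3 hη.le
          _ = eta K := one_mul _
      change |e (m + 1 + 2) - kap K * (∑ c ∈ range (m + 2), e c * e (m + 1 - c)) + e (m + 1)| ≤ _ at h
      rw [hs] at h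
      show |e (m + 1 + 1 + 1)| ≤ _
      have hk2 : |(2 * kap K - 1) * e (m + 1)| ≤ 6 * ((m + 1 : ℕ) : ℝ) * eta K := by
        rw [abs_mul]
        refine (mul_le_of_le_one_left (abs_nonneg _) ?_).trans he
        rw [abs_le]; constructor <;> linarith [kap_pos K, kap_le_one K]
      have hk3 : |kap K * ∑ c ∈ range m, e (c + 1) * e (m - c)| ≤ eta K := by
        rw [abs_mul, abs_of_pos (kap_pos K)]
        exact (mul_le_of_le_one_left (abs_nonneg _) (kap_le_one K)).trans hprod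
      rw [abs_le] at h hk2 hk3 ⊢
      push_cast at hk2 ⊢
      rw [show m + 1 + 1 + 1 = m + 1 + 2 from rfl]
      constructor <;> linarith

lemma mean_small (S : Setting n K) {m : ℕ} (h1 : 1 ≤ m) (h2 : m ≤ 2 * K) :
    |∫ G, tau K m G ∂gauss (Edge n)| ≤ eps K / 2 := by
  refine (mean_le S m h1 h2).trans ?_
  have hK0 : (1 : ℝ) ≤ K := by exact_mod_cast S.hK
  have hm : (m : ℝ) ≤ 2 * K := by exact_mod_cast h2
  refine (mul_le_mul_of_nonneg_right (mul_le_mul_of_nonneg_left hm (by norm_num))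
    (eta_pos K).le).trans ?_
  rw [eta, eps, div_div, mul_one_div, div_le_div_iff₀ (by positivity) (by positivity), one_mul]
  calc 6 * (2 * (K : ℝ)) * (8 * ((K : ℝ) + 1) ^ 6 * 2)
      ≤ 192 * ((K : ℝ) + 1) ^ 7 := by
        rw [pow_succ ((K : ℝ) + 1) 6]; nlinarith [pow_nonneg (by positivity : (0:ℝ) ≤ (K:ℝ) + 1) 6]
    _ ≤ 100 * ((K : ℝ) + 1) ^ 3 * ((K : ℝ) + 1) ^ 7 := by
        gcongr
        nlinarith [pow_le_pow_left₀ (by norm_num : (0:ℝ) ≤ 2)
          (by linarith : (2:ℝ) ≤ (K:ℝ) + 1) 3]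
    _ = _ := by ring

/-- A trace is close to its mean with overwhelming probability. -/
lemma tau_tail (S : Setting n K) {m : ℕ} (hm : m ≤ 2 * K) :
    (gauss (Edge n)).real {G : Arr n | eps K / 2 < |tau K m G - ∫ G', tau K m G' ∂gauss (Edge n)|} ≤
      ((n : ℝ) ^ (100 * (K + 1) + 3))⁻¹ := by
  set μ := gauss (Edge n)
  set j := 100 * (K + 1) + 3 with hj
  set em := ∫ G', tau K m G' ∂μ with hem
  have hn := S.one_le
  have hn0 : (0 : ℝ) < n := by linarith
  have he : 0 < eps K := by unfold eps; positivity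
  have hd : Tame fun G : Arr n => tau K m G - em := (tame_tau K m).sub (tame_const _)
  have ht : Tame fun G : Arr n => (tau K m G - em) ^ (2 * j) := tame_pow hd _
  have hmk := mul_meas_ge_le_integral_of_nonneg (μ := μ)
    (f := fun G : Arr n => (tau K m G - em) ^ (2 * j))
    (.of_forall fun G => by simp only [pow_mul]; positivity) ht.integrable ((eps K / 2) ^ (2 * j))
  have hsub : μ.real {G : Arr n | eps K / 2 < |tau K m G - em|} ≤
      μ.real {G : Arr n | (eps K / 2) ^ (2 * j) ≤ (tau K m G - em) ^ (2 * j)} := by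
    refine measureReal_mono ?_
    intro G hG
    change eps K / 2 < |tau K m G - em| at hG
    change (eps K / 2) ^ (2 * j) ≤ (tau K m G - em) ^ (2 * j)
    rw [pow_mul, pow_mul, ← sq_abs (tau K m G - em)]
    exact pow_le_pow_left₀ (sq_nonneg _) (pow_le_pow_left₀ (by positivity) hG.le 2) j
  refine hsub.trans ?_
  have hmom := tau_moment_le S hm (j := j) (by omega) (by omega)
  have hpos : 0 < (eps K / 2) ^ (2 * j) := by positivity
  rw [← mul_le_mul_iff_right₀ hpos]
  refine hmk.trans (hmom.trans ?_)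
  rw [← inv_pow, pow_mul (eps K / 2), ← mul_pow]
  refine pow_le_pow_left₀ (by positivity) ?_ j
  rw [eps, div_le_iff₀ (by positivity)]
  have hjR : (j : ℝ) ≤ 103 * ((K : ℝ) + 1) := by
    exact_mod_cast (show j ≤ 103 * (K + 1) by omega)
  have hb : 256 * (2000 * (j : ℝ) * (K : ℝ) ^ 6) * ((K : ℝ) + 1) ^ 12 ≤ n :=
    calc 256 * (2000 * (j : ℝ) * (K : ℝ) ^ 6) * ((K : ℝ) + 1) ^ 12
        ≤ 256 * (2000 * (103 * ((K : ℝ) + 1)) * ((K : ℝ) + 1) ^ 6) * ((K : ℝ) + 1) ^ 12 := by
          gcongr; linarith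
      _ = 52736000 * ((K : ℝ) + 1) ^ 19 := by ring
      _ ≤ n := S.card_big 19 (by norm_num) (by norm_num)
  field_simp
  linarith

/-- The likely event. -/
theorem exists_good (S : Setting n K) :
    ∃ s : Set (Arr n), MeasurableSet s ∧ (∀ G ∈ s, GoodArr K G) ∧
      (gauss (Edge n)).real sᶜ ≤ ((n : ℝ) ^ (100 * (K + 1)))⁻¹ := by
  let bad : ℕ → Set (Arr n) := fun m =>
    {G | eps K / 2 < |tau K m G - ∫ G', tau K m G' ∂gauss (Edge n)|}
  have hbm : ∀ m, MeasurableSet (bad m) := fun m =>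
    measurableSet_lt measurable_const ((((tame_tau K m).sub (tame_const _)).abs).1.measurable)
  refine ⟨S.s \ ⋃ m ∈ Finset.Icc 1 (2 * K), bad m,
    S.meas.diff (Finset.measurableSet_biUnion _ fun m _ => hbm m),
    fun G hG => ⟨S.norm G hG.1, fun m h1 h2 => ?_⟩, ?_⟩
  · have hn0 : (0 : ℝ) < n := by exact_mod_cast S.pos
    have hnb : G ∉ bad m := fun h => hG.2 (Set.mem_biUnion (Finset.mem_Icc.2 ⟨h1, h2⟩) h)
    have h3 : |tau K m G - ∫ G', tau K m G' ∂gauss (Edge n)| ≤ eps K / 2 := not_lt.1 hnb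
    have h4 := mean_small S h1 h2
    have h5 : |tau K m G| ≤ eps K := by
      rw [abs_le] at h3 h4 ⊢
      constructor <;> linarith
    rw [tau, abs_div, abs_of_pos hn0, div_le_iff₀ hn0] at h5
    exact h5
  · rw [Set.sdiff_eq, Set.compl_inter, compl_compl]
    refine (measureReal_union_le _ _).trans ?_
    have hu := (measureReal_biUnion_finset_le (μ := gauss (Edge n)) (Finset.Icc 1 (2 * K)) bad).trans
      (sum_le_sum fun m hm => tau_tail S (Finset.mem_Icc.1 hm).2)
    rw [sum_const, Nat.card_Icc, nsmul_eq_mul, Nat.add_sub_cancel] at hu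
    have ht := S.tail (100 * (K + 1) + 3) (by
      calc 100 * (K + 1) + 3 ≤ 103 * (K + 1) ^ 1 := by rw [pow_one]; omega
        _ ≤ _ := Nat.mul_le_mul (by norm_num) (Nat.pow_le_pow_right (by omega) (by norm_num)))
    refine (add_le_add ht hu).trans ?_
    have hn0 : (0 : ℝ) < n := by exact_mod_cast S.pos
    have h2K : (2 * K + 1 : ℝ) ≤ (n : ℝ) ^ 3 :=
      le_trans (le_trans (by linarith) (S.card_big (c := 2) 1 (by norm_num) (by norm_num)))
        (le_self_pow₀ S.one_le (by norm_num))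
    rw [pow_add, mul_inv]
    calc (((n : ℝ) ^ (100 * (K + 1)))⁻¹ * ((n : ℝ) ^ 3)⁻¹) +
          ((2 * K : ℕ) : ℝ) * (((n : ℝ) ^ (100 * (K + 1)))⁻¹ * ((n : ℝ) ^ 3)⁻¹)
        = ((n : ℝ) ^ (100 * (K + 1)))⁻¹ * ((2 * (K : ℝ) + 1) / (n : ℝ) ^ 3) := by
          push_cast; ring
      _ ≤ _ := mul_le_of_le_one_right (by positivity) ((div_le_one (by positivity)).2 h2K)

lemma log_le_two_sqrt {x : ℝ} (hx : 0 < x) : Real.log x ≤ 2 * Real.sqrt x := by
  have h := Real.log_le_sub_one_of_pos (Real.sqrt_pos.2 hx)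
  rw [Real.log_sqrt hx.le] at h
  linarith [Real.sqrt_nonneg x]

end Vale.Agent.P146.Power.Traces

namespace Vale.Agent.P146.Power

open MeasureTheory Traces
open Vale.Agent.P157 (gauss)

/-- The good event is likely. -/
theorem good_statement : GoodStatement := by
  obtain ⟨C₀, hC₀, hN⟩ := norm_good
  refine ⟨max C₀ 2, le_max_of_le_left hC₀, fun n K hK hn => ?_⟩
  set b : ℝ := max C₀ 2 * ((K : ℝ) + 1) with hb
  have hK1 : (1 : ℝ) ≤ (K : ℝ) + 1 := by linarith [(Nat.cast_nonneg K : (0:ℝ) ≤ K)]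
  have hb2 : 2 * ((K : ℝ) + 1) ≤ b :=
    mul_le_mul_of_nonneg_right (le_max_right _ _) (by positivity)
  have hb0 : C₀ * ((K : ℝ) + 1) ≤ b :=
    mul_le_mul_of_nonneg_right (le_max_left _ _) (by positivity)
  have hb1 : 1 ≤ b := by linarith
  have hC0 : 0 < C₀ * ((K : ℝ) + 1) := by positivity
  obtain ⟨s, hs, hnorm, htail⟩ := hN n K hK ((pow_le_pow_left₀ hC0.le hb0 80).trans hn)
  have hn0 : (0 : ℝ) < n := lt_of_lt_of_le (by positivity) hn
  refine exists_good ⟨s, hs, hnorm, hK,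
    ((pow_le_pow_left₀ (by positivity) hb2 40).trans
      ((pow_le_pow_right₀ hb1 (by norm_num)).trans hn)), fun M hM => htail.trans ?_⟩
  rw [← Real.exp_log (inv_pos.2 (pow_pos hn0 M)), Real.exp_le_exp, Real.log_inv, Real.log_pow,
    neg_le_neg_iff, le_div_iff₀ (by positivity)]
  have hr : b ^ 40 ≤ Real.sqrt n := by
    refine Real.le_sqrt_of_sq_le ?_
    rw [← pow_mul]
    exact hn
  have hM' : 2 * (M : ℝ) ≤ b ^ 20 := by
    refine le_trans ?_ (pow_le_pow_left₀ (by positivity) hb2 20)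
    have : (M : ℝ) ≤ 10000 * ((K : ℝ) + 1) ^ 3 := by exact_mod_cast hM
    rw [mul_pow]
    calc 2 * (M : ℝ) ≤ 20000 * ((K : ℝ) + 1) ^ 3 := by linarith
      _ ≤ 2 ^ 20 * ((K : ℝ) + 1) ^ 20 := by
          refine mul_le_mul (by norm_num) (pow_le_pow_right₀ hK1 (by norm_num)) (by positivity)
            (by positivity)
  calc (M : ℝ) * Real.log n * (C₀ * ((K : ℝ) + 1)) ^ 20
      ≤ (M : ℝ) * (2 * Real.sqrt n) * b ^ 20 := by
        gcongr
        exact log_le_two_sqrt hn0
    _ = Real.sqrt n * ((2 * (M : ℝ)) * b ^ 20) := by ring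
    _ ≤ Real.sqrt n * (b ^ 20 * b ^ 20) := by gcongr
    _ ≤ Real.sqrt n * Real.sqrt n := by rw [← pow_add]; gcongr
    _ = n := Real.mul_self_sqrt hn0.le

end Vale.Agent.P146.Power
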